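import Vale.Agent.P273SD.Par
import Vale.Agent.P247.H558.VF.Inj

/-!
Holomorphic functions on a fibre: description on the branches, removable singularities; the inverse
of an isomorphism of fibres.
-/

set_option linter.unusedSectionVars false
set_option linter.unusedVariables false

noncomputable section

namespace Vale.Agent.P273SD

open Set Filter Topology Vale.Agent.P273.H183 Vale.Agent.P273.H948

variable {L : Type} {m m' m'' : ℕ}

section Chart

variable {C : Fam L m} [Nonempty C.X] {U : Set C.X} {u v : C.X → ℂ} {t : (Fin m → ℂ) → ℂ}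
  {p : C.X}

theorem hol_comp_u (h : Mod C U u v t) (hp : p ∈ U) {ξ : ℂ → ℂ} (hξ : AnalyticAt ℂ ξ (u p)) :
    C.hol (fun q => ξ (u q)) p :=
  (h.hol p hp _).2 ⟨fun w => ξ w.2.1,
    AnalyticAt.comp_of_eq (g := ξ) (f := fun w : Amb m => w.2.1) hξ (an_u _) rfl,
    EventuallyEq.rfl⟩

theorem ev_back (h : Mod C U u v t) (hp : p ∈ U) (h0 : u p ≠ 0) :
    ∀ᶠ q in 𝓝 p, Pc C U u v t (C.π q) (u q) = q := by
  filter_upwards [h.isOpen.mem_nhds hp, (h.cont_u hp) (isOpen_ne.mem_nhds h0)] with q h1 h2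
  exact Pc_self h h1 (absurd · h2)

theorem fh_smooth (h : Mod C U u v t) (hp : p ∈ U) (h0 : u p ≠ 0) {F : C.X → ℂ}
    (hF : AnalyticAt ℂ (fun z => F (Pc C U u v t (C.π p) z)) (u p)) : FH C (C.π p) F p := by
  refine ⟨_, hol_comp_u h hp hF, ?_⟩
  filter_upwards [mem_nhdsWithin_of_mem_nhds (ev_back h hp h0), self_mem_nhdsWithin] with q h1 h2
  rw [← show C.π q = C.π p from h2, h1]

theorem fh_node (h : Mod C U u v t) (hp : p ∈ U) (hu : u p = 0) (hv : v p = 0) {F : C.X → ℂ}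
    (h1 : AnalyticAt ℂ (fun z => F (Pc C U u v t (C.π p) z)) (u p))
    (h2 : AnalyticAt ℂ (fun z => F (Pc C U v u t (C.π p) z)) (v p)) : FH C (C.π p) F p := by
  refine ⟨fun q => F (Pc C U u v t (C.π p) (u q)) + F (Pc C U v u t (C.π p) (v q)) - F p,
    (h.hol p hp _).2 ⟨fun w => F (Pc C U u v t (C.π p) w.2.1) + F (Pc C U v u t (C.π p) w.2.2)
      - F p, ((AnalyticAt.comp_of_eq (f := fun w : Amb m => w.2.1) h1 (an_u _) rfl).add
        (AnalyticAt.comp_of_eq (f := fun w : Amb m => w.2.2) h2 (an_v _) rfl)).sub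
          analyticAt_const, EventuallyEq.rfl⟩, ?_⟩
  have e1 : Pc C U u v t (C.π p) 0 = p := by rw [← hu]; exact Pc_self h hp fun _ => hv
  have e2 : Pc C U v u t (C.π p) 0 = p := by rw [← hv]; exact Pc_self h.swap hp fun _ => hu
  filter_upwards [mem_nhdsWithin_of_mem_nhds (h.isOpen.mem_nhds hp), self_mem_nhdsWithin]
    with q h3 h4
  have h5 : C.π q = C.π p := h4
  have h6 : u q * v q = 0 := by rw [h.eqn q h3, h5, ← h.eqn p hp, hu, zero_mul]
  by_cases h7 : v q = 0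
  · have h8 := Pc_self h h3 fun _ => h7
    rw [h5] at h8
    simp only [h7, h8, e2, add_sub_cancel_right]
  · have h8 := Pc_self h.swap h3 (absurd · h7)
    rw [h5] at h8
    simp only [(mul_eq_zero.1 h6).resolve_right h7, h8, e1, add_sub_cancel_left]

theorem an_br_of (h : Mod C U u v t) (hp : p ∈ U) (h0 : u p = 0 → v p = 0) {F : C.X → ℂ}
    (hc : ContinuousWithinAt F (C.fib (C.π p)) p)
    (hF : ∀ᶠ q in 𝓝[C.fib (C.π p)] p, q ≠ p → FH C (C.π p) F q) :
    AnalyticAt ℂ (fun z => F (Pc C U u v t (C.π p) z)) (u p) := by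
  have h1 := (holF_br h hp h0).tendsto
  rw [Pc_self h hp h0] at h1
  refine Complex.analyticAt_of_differentiable_on_punctured_nhds_of_continuousAt ?_ ?_
  · rw [eventually_nhdsWithin_iff]
    filter_upwards [h1.eventually hF, ev_holF_br h hp h0, ev_br h hp h0] with z h2 h3 h4 h5
    refine (h3.fh (h2 fun h6 => h5 ?_)).differentiableAt
    rw [mem_singleton_iff, ← h4.2.2.1, h6]
  · rw [ContinuousAt, Pc_self h hp h0]
    exact hc.tendsto.comp h1

end Chart

/-- **Removable singularities** on a fibre. -/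
theorem fh_removable {C : Fam L m} (hC : C.IsStable) {b : Fin m → ℂ} {p : C.X} (hp : p ∈ C.fib b)
    {F : C.X → ℂ} (hc : ContinuousWithinAt F (C.fib b) p)
    (hF : ∀ᶠ q in 𝓝[C.fib b] p, q ≠ p → FH C b F q) : FH C b F p := by
  have : Nonempty C.X := ⟨p⟩
  obtain rfl : C.π p = b := hp
  by_cases h0 : Sm C p
  · obtain ⟨U, u, v, t, hU, h, h1⟩ := h0
    exact fh_smooth h hU h1 (an_br_of h hU (absurd · h1) hc hF)
  · obtain ⟨U, u, v, t, hU, h⟩ := exists_mod hC p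
    obtain ⟨h1, h2⟩ := node_of_not_sm h0 h hU
    exact fh_node h hU h1 h2 (an_br_of h hU (fun _ => h2) hc hF)
      (an_br_of h.swap hU (fun _ => h1) hc hF)

theorem HolF.an_u {C : Fam L m} {b : Fin m → ℂ} {g : ℂ → C.X} {z : ℂ} (hg : HolF C b g z)
    {U : Set C.X} {u v : C.X → ℂ} {t : (Fin m → ℂ) → ℂ} (h : Mod C U u v t) (hU : g z ∈ U) :
    AnalyticAt ℂ (fun w => u (g w)) z := hg.an u (h.hol_u hU)

/-- **Identity theorem** for maps into a fibre. -/
theorem const_of_ev {C : Fam L m} (hC : C.IsStable) {b : Fin m → ℂ} {g : ℂ → C.X} {Ω : Set ℂ}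
    (hΩ : IsPreconnected Ω) (hg : ∀ z ∈ Ω, HolF C b g z) {z₀ : ℂ} (hz₀ : z₀ ∈ Ω) {q : C.X}
    (h0 : ∀ᶠ z in 𝓝 z₀, g z = q) : ∀ z ∈ Ω, g z = q := by
  have := hC.2.1
  have h1 : Ω ⊆ {z | ∀ᶠ w in 𝓝 z, g w = q} := by
    refine hΩ.subset_of_closure_inter_subset isOpen_setOfPred_eventually_nhds ⟨z₀, hz₀, h0⟩ ?_
    rintro z ⟨hz, hzΩ⟩
    by_cases h2 : ∀ᶠ w in 𝓝 z, g w = q
    · exact h2
    have h3 : ∃ᶠ w in 𝓝[≠] z, g w = q := by
      have h4 : ∃ᶠ w in 𝓝 z, ∀ᶠ w' in 𝓝 w, g w' = q := mem_closure_iff_frequently.1 hz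
      rw [frequently_nhdsWithin_iff]
      exact h4.mono fun w hw => ⟨hw.self_of_nhds, fun e => h2 (by rwa [e] at hw)⟩
    have h5 : g z = q := by
      by_contra h5
      exact (h3.filter_mono nhdsWithin_le_nhds) ((hg z hzΩ).cont (isOpen_ne.mem_nhds h5))
    obtain ⟨U, u, v, t, hU, h⟩ := exists_mod hC q
    have hU' : g z ∈ U := h5 ▸ hU
    have h6 := (((hg z hzΩ).an_u h hU').sub (analyticAt_const (v := u q))).frequently_zero_iff_eventually_zero.1
      (h3.mono fun w hw => by simp [hw])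
    have h7 := (((hg z hzΩ).an_u h.swap hU').sub (analyticAt_const (v := v q))).frequently_zero_iff_eventually_zero.1
      (h3.mono fun w hw => by simp [hw])
    filter_upwards [h6, h7, (hg z hzΩ).fib, (hg z hzΩ).cont (h.isOpen.mem_nhds hU')]
      with w h8 h9 h10 h11
    refine h.inj h11 hU ?_
    have h12 : C.π q = b := h5 ▸ (hg z hzΩ).mem
    simp only [Pi.sub_apply, sub_eq_zero] at h8 h9
    simp only [Emap, h8, h9, h10, h12]
  exact fun z hz => (h1 hz).self_of_nhds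

theorem FIso.refl (C : Fam L m) (b : Fin m → ℂ) : FIso C b C b id :=
  ⟨bijOn_id _, continuousOn_id, fun _ _ _ hf => fh_of_hol hf, fun _ => rfl⟩

theorem FIso.fh {C : Fam L m} {C' : Fam L m'} {b : Fin m → ℂ} {b' : Fin m' → ℂ} {φ : C.X → C'.X}
    (h : FIso C b C' b' φ) {p : C.X} (hp : p ∈ C.fib b) {F : C'.X → ℂ} (hF : FH C' b' F (φ p)) :
    FH C b (fun q => F (φ q)) p := by
  obtain ⟨g, h1, h2⟩ := hF
  exact (h.hol p hp g h1).congr (((h.cont p hp).tendsto_nhdsWithin h.bij.mapsTo).eventually h2)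

theorem FIso.trans {C : Fam L m} {C' : Fam L m'} {C'' : Fam L m''} {b : Fin m → ℂ}
    {b' : Fin m' → ℂ} {b'' : Fin m'' → ℂ} {φ : C.X → C'.X} {ψ : C'.X → C''.X}
    (h : FIso C b C' b' φ) (h' : FIso C' b' C'' b'' ψ) : FIso C b C'' b'' (ψ ∘ φ) :=
  ⟨h'.bij.comp h.bij, h'.cont.comp h.cont h.bij.mapsTo,
    fun p hp f hf => h.fh (F := fun q => f (ψ q)) hp (h'.hol _ (h.bij.mapsTo hp) f hf),
    fun i => by rw [Function.comp_apply, h.mark, h'.mark]⟩

theorem FIso.of_isMor {C : Fam L m} {C' : Fam L m'} {φ : (Fin m' → ℂ) → Fin m → ℂ}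
    {Φ : C'.X → C.X} (h : IsMor C' C φ Φ) {b : Fin m' → ℂ} (hb : b ∈ C'.B) :
    FIso C' b C (φ b) Φ :=
  ⟨(h.1 b hb).2.2.1, h.2.1.continuousOn, fun p _ f hf => fh_of_hol (h.2.2 f p hf),
    (h.1 b hb).2.2.2⟩

section Inv

variable {C : Fam L m} {C' : Fam L m'} {b : Fin m → ℂ} {b' : Fin m' → ℂ} {φ : C.X → C'.X}

theorem FIso.map_nhds (hC : C.IsStable) (hC' : C'.IsStable) (hb : b ∈ C.B)
    (h : FIso C b C' b' φ) {p : C.X} (hp : p ∈ C.fib b) :
    𝓝[C'.fib b'] (φ p) ≤ map φ (𝓝[C.fib b] p) := by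
  have := hC'.2.1
  intro s hs
  obtain ⟨O, hO, hpO, hOs⟩ := mem_nhdsWithin.1 (mem_map.1 hs)
  have hK : IsCompact (φ '' (C.fib b \ O)) :=
    ((isCompact_fib hC hb).diff hO).image_of_continuousOn (h.cont.mono sdiff_subset)
  have h1 : φ p ∉ φ '' (C.fib b \ O) := by
    rintro ⟨q, hq, e⟩
    exact hq.2 (h.bij.injOn hq.1 hp e ▸ hpO)
  filter_upwards [mem_nhdsWithin_of_mem_nhds (hK.isClosed.isOpen_compl.mem_nhds h1),
    self_mem_nhdsWithin] with q h2 h3
  obtain ⟨x, hx, rfl⟩ := h.bij.surjOn h3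
  by_cases h4 : x ∈ O
  · exact hOs ⟨h4, hx⟩
  · exact absurd ⟨x, ⟨hx, h4⟩, rfl⟩ h2

/-- At a node no coordinate vanishes identically on the fibre. -/
theorem not_ev_zero {U : Set C.X} {u v : C.X → ℂ} {t : (Fin m → ℂ) → ℂ} {p : C.X}
    (h : Mod C U u v t) (hp : p ∈ U) (h0 : u p = 0 → v p = 0) (c : ℂ) :
    ¬ ∀ᶠ q in 𝓝[C.fib (C.π p)] p, u q = c := by
  have : Nonempty C.X := ⟨p⟩
  intro h1
  have h2 := (holF_br h hp h0).tendsto
  rw [Pc_self h hp h0] at h2
  have h3 : ∀ᶠ z in 𝓝 (u p), z = c := by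
    filter_upwards [h2.eventually h1, ev_br h hp h0] with z h4 h5
    rw [← h4, h5.2.2.1]
  obtain ⟨z, h4, h5⟩ := ((h3.filter_mono nhdsWithin_le_nhds).and
    (self_mem_nhdsWithin (s := {u p}ᶜ))).exists
  exact h5 (h4.trans h3.self_of_nhds.symm)

theorem FIso.sm (hC : C.IsStable) (hC' : C'.IsStable) (hb : b ∈ C.B)
    (h : FIso C b C' b' φ) {p : C.X} (hp : p ∈ C.fib b) (hs : Sm C p) : Sm C' (φ p) := by
  have : Nonempty C.X := ⟨p⟩
  by_contra h0
  obtain ⟨U', u', v', t', hU', h'⟩ := exists_mod hC' (φ p)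
  obtain ⟨h1, h2⟩ := node_of_not_sm h0 h' hU'
  obtain ⟨U, u, v, t, hU, hm, h3⟩ := hs
  obtain rfl : C.π p = b := hp
  have hb' : C'.π (φ p) = b' := h.bij.mapsTo rfl
  have h4 := h.holF (holF_br hm hU (absurd · h3))
  have e : Pc C U u v t (C.π p) (u p) = p := Pc_self hm hU (absurd · h3)
  have hU'' : φ (Pc C U u v t (C.π p) (u p)) ∈ U' := by rwa [e]
  have key : ∀ w : C'.X → ℂ, (∀ᶠ z in 𝓝 (u p), w (φ (Pc C U u v t (C.π p) z)) = 0) →
      ∀ᶠ q in 𝓝[C'.fib (C'.π (φ p))] (φ p), w q = 0 := by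
    intro w hw
    rw [hb']
    refine h.map_nhds hC hC' hb rfl (eventually_map.2 ?_)
    filter_upwards [mem_nhdsWithin_of_mem_nhds (ev_back hm hU h3), self_mem_nhdsWithin,
      mem_nhdsWithin_of_mem_nhds ((hm.cont_u hU).eventually hw)] with q h5 h6 h7
    rwa [← show C.π q = C.π p from h6, h5] at h7
  have h5 : ∀ᶠ z in 𝓝 (u p), u' (φ (Pc C U u v t (C.π p) z)) *
      v' (φ (Pc C U u v t (C.π p) z)) = 0 := by
    filter_upwards [h4.fib, h4.cont (h'.isOpen.mem_nhds hU'')] with z h6 h7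
    rw [h'.eqn _ h7, h6, ← hb', ← h'.eqn _ hU', h1, zero_mul]
  rcases (h4.an_u h' hU'').eventually_eq_zero_or_eventually_ne_zero with h6 | h6
  · exact not_ev_zero h' hU' (fun _ => h2) 0 (key u' h6)
  · refine not_ev_zero h'.swap hU' (fun _ => h1) 0 (key v' ?_)
    refine (h4.an_u h'.swap hU'').frequently_zero_iff_eventually_zero.1 (Eventually.frequently ?_)
    filter_upwards [h6, h5.filter_mono nhdsWithin_le_nhds] with z h7 h8
    exact (mul_eq_zero.1 h8).resolve_left h7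

/-- **The inverse of an isomorphism of fibres.** -/
theorem FIso.symm (hC : C.IsStable) (hC' : C'.IsStable) (hb : b ∈ C.B) (hb' : b' ∈ C'.B)
    (h : FIso C b C' b' φ) : ∃ ψ, FIso C' b' C b ψ ∧ InvOn ψ φ (C.fib b) (C'.fib b') := by
  obtain ⟨p₀, hp₀⟩ := (hC.2.2.2.2.2 b hb).1.nonempty
  have : Nonempty C.X := ⟨p₀⟩
  have : Nonempty C'.X := ⟨φ p₀⟩
  have hi : InvOn (Function.invFunOn φ (C.fib b)) φ (C.fib b) (C'.fib b') := h.bij.invOn_invFunOn
  set ψ := Function.invFunOn φ (C.fib b) with hψ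
  have hbij : BijOn ψ (C'.fib b') (C.fib b) := h.bij.symm hi.symm
  have hten : ∀ p ∈ C.fib b, Tendsto ψ (𝓝[C'.fib b'] (φ p)) (𝓝[C.fib b] p) := by
    intro p hp
    refine Tendsto.mono_left ?_ (h.map_nhds hC hC' hb hp)
    rw [tendsto_map'_iff]
    refine Tendsto.congr' ?_ tendsto_id
    filter_upwards [self_mem_nhdsWithin] with q hq using (hi.1 hq).symm
  have hcont : ContinuousOn ψ (C'.fib b') := by
    intro q hq
    obtain ⟨p, hp, rfl⟩ := h.bij.surjOn hq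
    rw [ContinuousWithinAt, hi.1 hp]
    exact (hten p hp).mono_right nhdsWithin_le_nhds
  have hsm : ∀ p ∈ C.fib b, Sm C p → ∀ F, FH C b F p → FH C' b' (fun q => F (ψ q)) (φ p) := by
    intro p hp hs F hF
    obtain ⟨U', u', v', t', hU', h', h3'⟩ := h.sm hC hC' hb hp hs
    obtain ⟨U, u, v, t, hU, hm, h3⟩ := hs
    obtain rfl : C.π p = b := hp
    have hb1 : C'.π (φ p) = b' := h.bij.mapsTo rfl
    have e : Pc C U u v t (C.π p) (u p) = p := Pc_self hm hU (absurd · h3)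
    have h4 := h.holF (holF_br hm hU (absurd · h3))
    have hU'' : φ (Pc C U u v t (C.π p) (u p)) ∈ U' := by rwa [e]
    set G : ℂ → ℂ := fun z => u' (φ (Pc C U u v t (C.π p) z)) with hG
    have hGa : AnalyticAt ℂ G (u p) := h4.an_u h' hU''
    have h5 : ∀ᶠ z in 𝓝 (u p), φ (Pc C U u v t (C.π p) z) =
        Pc C' U' u' v' t' b' (G z) := by
      have h6 := ev_back h' hU' h3'
      rw [← e] at h6
      filter_upwards [h4.cont.eventually h6, h4.fib] with z h7 h8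
      rw [← h7, h8]
    obtain ⟨O, hO1, hO2, hO3⟩ := eventually_nhds_iff.1
      (h5.and ((ev_br hm hU (absurd · h3)).and hGa.eventually_analyticAt))
    have hinj : InjOn G O := by
      intro z hz w hw e1
      have h7 := h.bij.injOn (hO1 z hz).2.1.2.1 (hO1 w hw).2.1.2.1
        (by rw [(hO1 z hz).1, (hO1 w hw).1, e1])
      rw [← (hO1 z hz).2.1.2.2.1, h7, (hO1 w hw).2.1.2.2.1]
    have hd : deriv G (u p) ≠ 0 := P247.H558.VF.injOn_deriv_ne_zero hO2
      (fun z hz => (hO1 z hz).2.2.differentiableAt.differentiableWithinAt) hinj hO3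
    have hs := hGa.hasStrictDerivAt
    have hGp : G (u p) = u' (φ p) := by simp only [hG, e]
    have hinv : AnalyticAt ℂ (hs.localInverse G _ _ hd) (G (u p)) :=
      hGa.analyticAt_localInverse hd
    have hF1 : AnalyticAt ℂ (fun z => F (Pc C U u v t (C.π p) z)) (u p) :=
      (holF_br hm hU (absurd · h3)).fh (by rwa [e])
    have hl : ∀ᶠ z in 𝓝 (u p), hs.localInverse G _ _ hd (G z) = z :=
      (hs.hasStrictFDerivAt_equiv hd).eventually_left_inverse
    refine ⟨fun q => F (Pc C U u v t (C.π p) (hs.localInverse G _ _ hd (u' q))),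
      hol_comp_u h' hU' (ξ := fun w => F (Pc C U u v t (C.π p) (hs.localInverse G _ _ hd w)))
        (hGp ▸ AnalyticAt.comp_of_eq (g := fun z => F (Pc C U u v t (C.π p) z)) hF1 hinv
          hl.self_of_nhds), ?_⟩
    refine h.map_nhds hC hC' hb rfl (eventually_map.2 ?_)
    filter_upwards [mem_nhdsWithin_of_mem_nhds (ev_back hm hU h3), self_mem_nhdsWithin,
      mem_nhdsWithin_of_mem_nhds ((hm.cont_u hU).eventually hl)] with q h6 h7 h8
    have h9 : C.π q = C.π p := h7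
    rw [h9] at h6
    simp only [hG, h6] at h8
    rw [hi.1 h7, h8, h6]
  refine ⟨ψ, ⟨hbij, hcont, fun q hq f hf => ?_, fun i => ?_⟩, hi⟩
  · obtain ⟨p, hp, rfl⟩ := h.bij.surjOn hq
    rw [hi.1 hp] at hf
    obtain ⟨U, u, v, t, hU, hm⟩ := exists_mod hC p
    obtain ⟨k, hk, ek⟩ := (hm.hol p hU f).1 hf
    have hfc : ContinuousAt f p :=
      (ContinuousAt.comp (g := k) hk.continuousAt (hm.cont hU)).congr ek.symm
    have hfe : ∀ᶠ x in 𝓝 p, C.hol f x := by
      filter_upwards [hm.isOpen.mem_nhds hU, (hm.cont hU).eventually hk.eventually_analyticAt,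
        ek.eventually_nhds] with x h1 h2 h3
      exact (hm.hol x h1 f).2 ⟨k, h2, h3⟩
    refine fh_removable hC' hq ?_ ?_
    · rw [ContinuousWithinAt, hi.1 hp]
      exact hfc.tendsto.comp ((hten p hp).mono_right nhdsWithin_le_nhds)
    · refine h.map_nhds hC hC' hb hp (eventually_map.2 ?_)
      filter_upwards [mem_nhdsWithin_of_mem_nhds hfe, mem_nhdsWithin_of_mem_nhds (ev_sm hC p),
        self_mem_nhdsWithin] with x h1 h2 h3 h4
      exact hsm x h3 (h2 (Eq.trans h3 (Eq.symm hp)) fun e => h4 (by rw [e])) f (fh_of_hol h1)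
  · rw [← h.mark, hi.1 ((hC.2.2.2.2.2 b hb).2.1 i).1]

theorem symm : Symm := fun _ _ _ _ _ hC hC' _ hb _ hb' _ h => h.symm hC hC' hb hb'

end Inv

end Vale.Agent.P273SD

end
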