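import Vale.Agent.P273SD.Defs
import Vale.Agent.P273.H948.Conv
import Vale.Agent.P273.H948.Smooth

/-!
Charts of a family of stable curves: the inverse of a chart, the parametrisation of a branch.
-/

set_option linter.unusedSectionVars false
set_option linter.unusedVariables false

noncomputable section

namespace Vale.Agent.P273SD

open Set Filter Topology Vale.Agent.P273.H183 Vale.Agent.P273.H948

variable {L : Type} {m m' : ℕ}

/-- A chart of the family `C`. -/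
abbrev Mod (C : Fam L m) (U : Set C.X) (u v : C.X → ℂ) (t : (Fin m → ℂ) → ℂ) : Prop :=
  IsModel C.π (fun x g => C.hol g x) U u v t

theorem exists_mod {C : Fam L m} (hC : C.IsStable) (p : C.X) :
    ∃ U u v t, p ∈ U ∧ Mod C U u v t := by
  obtain ⟨U, u, v, t, hp, h⟩ := hC.2.2.2.2.1 p
  exact ⟨U, u, v, t, hp, IsChart.isModel (hol := fun x g => C.hol g x) h⟩

/-- The surface of a stable family. -/
def toSurf (C : Fam L m) (hC : C.IsStable) : Surf m :=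
  ⟨C.X, C.top, hC.2.1, C.π, fun x g => C.hol g x, exists_mod hC⟩

theorem cont_π {C : Fam L m} (hC : C.IsStable) : Continuous C.π := (toSurf C hC).cont_π

/-- `p` is a smooth point of its fibre. -/
def Sm (C : Fam L m) (p : C.X) : Prop := ∃ U u v t, p ∈ U ∧ Mod C U u v t ∧ u p ≠ 0

theorem Sm.all {C : Fam L m} (hC : C.IsStable) {p : C.X} (hp : Sm C p) {U : Set C.X}
    {u v : C.X → ℂ} {t : (Fin m → ℂ) → ℂ} (h : Mod C U u v t) (hU : p ∈ U) :
    u p ≠ 0 ∨ v p ≠ 0 := by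
  obtain ⟨U₁, u₁, v₁, t₁, h1, h2, h3⟩ := hp
  exact (toSurf C hC).smooth_model h1 h2 h3 hU h

theorem sm_of_mod {C : Fam L m} {p : C.X} {U : Set C.X} {u v : C.X → ℂ}
    {t : (Fin m → ℂ) → ℂ} (h : Mod C U u v t) (hU : p ∈ U) (h0 : u p ≠ 0 ∨ v p ≠ 0) :
    Sm C p := by
  rcases h0 with h0 | h0
  · exact ⟨U, u, v, t, hU, h, h0⟩
  · exact ⟨U, v, u, t, hU, h.swap, h0⟩

theorem node_of_not_sm {C : Fam L m} {p : C.X} (hp : ¬ Sm C p) {U : Set C.X} {u v : C.X → ℂ}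
    {t : (Fin m → ℂ) → ℂ} (h : Mod C U u v t) (hU : p ∈ U) : u p = 0 ∧ v p = 0 := by
  by_contra h0
  exact hp (sm_of_mod h hU (by tauto))

theorem isOpen_sm (C : Fam L m) : IsOpen {p | Sm C p} := by
  refine isOpen_iff_mem_nhds.2 ?_
  rintro p ⟨U, u, v, t, h1, h2, h3⟩
  filter_upwards [h2.isOpen.mem_nhds h1, (h2.cont_u h1) (isOpen_ne.mem_nhds h3)] with q hq hq'
  exact ⟨U, u, v, t, hq, h2, hq'⟩

theorem sm_mark {C : Fam L m} (hC : C.IsStable) {b : Fin m → ℂ} (hb : b ∈ C.B) (i : L) :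
    Sm C (C.s i b) := by
  obtain ⟨U, u, v, t, hp, h⟩ := exists_mod hC (C.s i b)
  exact sm_of_mod h hp (((hC.2.2.2.2.2 b hb).2.1 i).2.2.2.2 U u v t h.isChart hp)

/-- Near a point, the other points of the fibre are smooth. -/
theorem ev_sm {C : Fam L m} (hC : C.IsStable) (p : C.X) :
    ∀ᶠ q in 𝓝 p, C.π q = C.π p → q ≠ p → Sm C q := by
  by_cases hp : Sm C p
  · filter_upwards [(isOpen_sm C).mem_nhds hp] with q hq _ _ using hq
  · obtain ⟨U, u, v, t, hU, h⟩ := exists_mod hC p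
    obtain ⟨h1, h2⟩ := node_of_not_sm hp h hU
    filter_upwards [h.isOpen.mem_nhds hU] with q hq h3 h4
    by_contra h5
    obtain ⟨h6, h7⟩ := node_of_not_sm h5 h hq
    exact h4 (h.inj hq hU (by simp only [Emap, h1, h2, h3, h6, h7]))

theorem isCompact_fib {C : Fam L m} (hC : C.IsStable) {b : Fin m → ℂ} (hb : b ∈ C.B) :
    IsCompact (C.fib b) :=
  hC.2.2.2.1 {b} (singleton_subset_iff.2 hb) isCompact_singleton

theorem finite_nodes {C : Fam L m} (hC : C.IsStable) {b : Fin m → ℂ} (hb : b ∈ C.B) :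
    {p ∈ C.fib b | ¬ Sm C p}.Finite := by
  have hK : IsCompact {p ∈ C.fib b | ¬ Sm C p} :=
    (isCompact_fib hC hb).inter_right (isOpen_sm C).isClosed_compl
  refine hK.finite (isDiscrete_iff_forall_mem_exists_isOpen.2 fun p hp => ?_)
  obtain ⟨O, h1, h2, h3⟩ := eventually_nhds_iff.1 (ev_sm hC p)
  refine ⟨O, h2, Set.ext fun q => ⟨fun hq => ?_, ?_⟩⟩
  · by_contra h4
    exact hq.2.2 (h1 q hq.1 (hq.2.1.trans (Eq.symm hp.1)) h4)
  · rintro rfl
    exact ⟨h3, hp⟩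

/-- `g` is a holomorphic map near `z` into the fibre over `b`. -/
structure HolF (C : Fam L m) (b : Fin m → ℂ) (g : ℂ → C.X) (z : ℂ) : Prop where
  cont : ContinuousAt g z
  fib : ∀ᶠ w in 𝓝 z, C.π (g w) = b
  an : ∀ f, C.hol f (g z) → AnalyticAt ℂ (fun w => f (g w)) z

theorem HolF.mem {C : Fam L m} {b : Fin m → ℂ} {g : ℂ → C.X} {z : ℂ} (h : HolF C b g z) :
    g z ∈ C.fib b := h.fib.self_of_nhds

theorem HolF.tendsto {C : Fam L m} {b : Fin m → ℂ} {g : ℂ → C.X} {z : ℂ} (h : HolF C b g z) :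
    Tendsto g (𝓝 z) (𝓝[C.fib b] (g z)) :=
  tendsto_nhdsWithin_iff.2 ⟨h.cont, h.fib⟩

theorem HolF.fh {C : Fam L m} {b : Fin m → ℂ} {g : ℂ → C.X} {z : ℂ} (h : HolF C b g z)
    {F : C.X → ℂ} (hF : FH C b F (g z)) : AnalyticAt ℂ (fun w => F (g w)) z := by
  obtain ⟨k, h1, h2⟩ := hF
  exact (h.an k h1).congr (h.tendsto.eventually h2.symm)

theorem HolF.comp {C : Fam L m} {b : Fin m → ℂ} {g : ℂ → C.X} {k : ℂ → ℂ} {z : ℂ}
    (h : HolF C b g (k z)) (hk : AnalyticAt ℂ k z) : HolF C b (fun w => g (k w)) z :=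
  ⟨h.cont.comp hk.continuousAt, hk.continuousAt.eventually h.fib,
    fun f hf => AnalyticAt.comp (g := fun w => f (g w)) (h.an f hf) hk⟩

theorem HolF.congr {C : Fam L m} {b : Fin m → ℂ} {g g' : ℂ → C.X} {z : ℂ}
    (h : HolF C b g z) (e : g =ᶠ[𝓝 z] g') : HolF C b g' z := by
  refine ⟨h.cont.congr e, ?_, fun f hf => ?_⟩
  · filter_upwards [h.fib, e] with w h1 h2
    rwa [← h2]
  · rw [← e.self_of_nhds] at hf
    exact (h.an f hf).congr (e.mono fun w hw => by simp only [hw])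

theorem FIso.holF {C : Fam L m} {C' : Fam L m'} {b : Fin m → ℂ} {b' : Fin m' → ℂ}
    {φ : C.X → C'.X} (hφ : FIso C b C' b' φ) {g : ℂ → C.X} {z : ℂ} (h : HolF C b g z) :
    HolF C' b' (fun w => φ (g w)) z :=
  ⟨(hφ.cont _ h.mem).tendsto.comp h.tendsto, h.fib.mono fun _ hw => hφ.bij.mapsTo hw,
    fun f hf => h.fh (F := fun q => f (φ q)) (hφ.hol _ h.mem f hf)⟩

theorem fh_of_hol {C : Fam L m} {b : Fin m → ℂ} {f : C.X → ℂ} {p : C.X} (h : C.hol f p) :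
    FH C b f p := ⟨f, h, EventuallyEq.rfl⟩

theorem FH.congr {C : Fam L m} {b : Fin m → ℂ} {F F' : C.X → ℂ} {p : C.X} (h : FH C b F p)
    (e : F' =ᶠ[𝓝[C.fib b] p] F) : FH C b F' p := by
  obtain ⟨g, h1, h2⟩ := h
  exact ⟨g, h1, e.trans h2⟩

section Chart

variable {C : Fam L m} [Nonempty C.X] {U : Set C.X} {u v : C.X → ℂ} {t : (Fin m → ℂ) → ℂ}
  {p : C.X}

/-- The inverse of a chart. -/
def Qc (C : Fam L m) [Nonempty C.X] (U : Set C.X) (u v : C.X → ℂ) (w : Amb m) : C.X :=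
  Function.invFunOn (Emap C.π u v) U w

/-- The point of the fibre over `b` with `u = z`. -/
def Pc (C : Fam L m) [Nonempty C.X] (U : Set C.X) (u v : C.X → ℂ) (t : (Fin m → ℂ) → ℂ)
    (b : Fin m → ℂ) (z : ℂ) : C.X := Qc C U u v (b, z, t b / z)

theorem Qc_E (h : Mod C U u v t) (hp : p ∈ U) : Qc C U u v (Emap C.π u v p) = p :=
  h.inj.leftInvOn_invFunOn hp

theorem tendsto_Qc (h : Mod C U u v t) (hp : p ∈ U) :
    Tendsto (Qc C U u v) (𝓝[Mset t] (Emap C.π u v p)) (𝓝 p) := by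
  rw [← h.nhds p hp, Tendsto, Filter.map_map]
  refine Tendsto.congr' ?_ tendsto_id
  filter_upwards [h.isOpen.mem_nhds hp] with q hq using (Qc_E h hq).symm

theorem ev_Qc (h : Mod C U u v t) (hp : p ∈ U) :
    ∀ᶠ w in 𝓝[Mset t] (Emap C.π u v p), Qc C U u v w ∈ U ∧ Emap C.π u v (Qc C U u v w) = w := by
  rw [← h.nhds p hp, eventually_map]
  filter_upwards [h.isOpen.mem_nhds hp] with q hq
  rw [Qc_E h hq]
  exact ⟨hq, rfl⟩

theorem an_Qc (h : Mod C U u v t) (hp : p ∈ U) {f : C.X → ℂ} (hf : C.hol f p) {A : Type*}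
    [NormedAddCommGroup A] [NormedSpace ℂ A] {γ : A → Amb m} {a : A} (hγ : AnalyticAt ℂ γ a)
    (h0 : γ a = Emap C.π u v p) (hM : ∀ᶠ x in 𝓝 a, γ x ∈ Mset t) :
    AnalyticAt ℂ (fun x => f (Qc C U u v (γ x))) a := by
  obtain ⟨k, hk, e⟩ := (h.hol p hp f).1 hf
  have h1 : Tendsto γ (𝓝 a) (𝓝[Mset t] (Emap C.π u v p)) :=
    tendsto_nhdsWithin_iff.2 ⟨h0 ▸ hγ.continuousAt, hM⟩
  refine (AnalyticAt.comp (g := k) (h0 ▸ hk) hγ).congr ?_
  filter_upwards [h1.eventually (ev_Qc h hp), ((tendsto_Qc h hp).comp h1).eventually e]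
    with x h2 h3
  simp only [Function.comp_apply] at h3 ⊢
  rw [h3, h2.2]

theorem gam_eq (h : Mod C U u v t) (hp : p ∈ U) (h0 : u p = 0 → v p = 0) :
    (C.π p, u p, t (C.π p) / u p) = Emap C.π u v p := by
  simp only [Emap, ← h.eqn p hp]
  by_cases h1 : u p = 0
  · simp [h1, h0 h1]
  · rw [mul_div_cancel_left₀ _ h1]

theorem Pc_self (h : Mod C U u v t) (hp : p ∈ U) (h0 : u p = 0 → v p = 0) :
    Pc C U u v t (C.π p) (u p) = p := by
  rw [Pc, gam_eq h hp h0, Qc_E h hp]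

theorem an_gam (h : Mod C U u v t) (hp : p ∈ U) (h0 : u p ≠ 0) :
    AnalyticAt ℂ (fun x : (Fin m → ℂ) × ℂ => ((x.1, x.2, t x.1 / x.2) : Amb m)) (C.π p, u p) :=
  analyticAt_fst.prod (analyticAt_snd.prod
    ((AnalyticAt.comp_of_eq (g := t) (f := fun x : (Fin m → ℂ) × ℂ => x.1) (h.an p hp)
      analyticAt_fst rfl).div analyticAt_snd h0))

theorem ev_gam (h0 : u p ≠ 0) : ∀ᶠ x : (Fin m → ℂ) × ℂ in 𝓝 (C.π p, u p),
    ((x.1, x.2, t x.1 / x.2) : Amb m) ∈ Mset t := by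
  filter_upwards [continuous_snd.continuousAt (isOpen_ne.mem_nhds h0)] with x hx
  exact mul_div_cancel₀ _ hx

theorem tendsto_gam (h : Mod C U u v t) (hp : p ∈ U) (h0 : u p ≠ 0) :
    Tendsto (fun x : (Fin m → ℂ) × ℂ => ((x.1, x.2, t x.1 / x.2) : Amb m)) (𝓝 (C.π p, u p))
      (𝓝[Mset t] (Emap C.π u v p)) :=
  tendsto_nhdsWithin_iff.2 ⟨gam_eq h hp (absurd · h0) ▸ (an_gam h hp h0).continuousAt, ev_gam h0⟩

theorem tendsto_Pc (h : Mod C U u v t) (hp : p ∈ U) (h0 : u p ≠ 0) :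
    Tendsto (fun x : (Fin m → ℂ) × ℂ => Pc C U u v t x.1 x.2) (𝓝 (C.π p, u p)) (𝓝 p) :=
  (tendsto_Qc h hp).comp (tendsto_gam h hp h0)

theorem ev_Pc (h : Mod C U u v t) (hp : p ∈ U) (h0 : u p ≠ 0) :
    ∀ᶠ x : (Fin m → ℂ) × ℂ in 𝓝 (C.π p, u p), Pc C U u v t x.1 x.2 ∈ U ∧
      C.π (Pc C U u v t x.1 x.2) = x.1 ∧ u (Pc C U u v t x.1 x.2) = x.2 := by
  filter_upwards [(tendsto_gam h hp h0).eventually (ev_Qc h hp)] with x hx
  exact ⟨hx.1, congrArg Prod.fst hx.2, congrArg (fun w : Amb m => w.2.1) hx.2⟩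

theorem an_Pc (h : Mod C U u v t) (hp : p ∈ U) (h0 : u p ≠ 0) {f : C.X → ℂ} (hf : C.hol f p) :
    AnalyticAt ℂ (fun x : (Fin m → ℂ) × ℂ => f (Pc C U u v t x.1 x.2)) (C.π p, u p) :=
  an_Qc h hp hf (an_gam h hp h0) (gam_eq h hp (absurd · h0)) (ev_gam h0)

/-! The branch through `p` in the fibre of `p`. -/

theorem an_br (h : Mod C U u v t) (hp : p ∈ U) (h0 : u p = 0 → v p = 0) :
    AnalyticAt ℂ (fun z : ℂ => ((C.π p, z, t (C.π p) / z) : Amb m)) (u p) ∧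
      ∀ᶠ z in 𝓝 (u p), ((C.π p, z, t (C.π p) / z) : Amb m) ∈ Mset t := by
  by_cases h1 : u p = 0
  · have h2 : t (C.π p) = 0 := by rw [← h.eqn p hp, h1, zero_mul]
    simp only [h2, zero_div]
    exact ⟨analyticAt_const.prod (analyticAt_id.prod analyticAt_const),
      Eventually.of_forall fun z => by simp [Mset, h2]⟩
  · refine ⟨analyticAt_const.prod (analyticAt_id.prod (analyticAt_const.div analyticAt_id h1)), ?_⟩
    filter_upwards [isOpen_ne.mem_nhds h1] with x hx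
    exact mul_div_cancel₀ _ hx

theorem tendsto_br (h : Mod C U u v t) (hp : p ∈ U) (h0 : u p = 0 → v p = 0) :
    Tendsto (fun z : ℂ => ((C.π p, z, t (C.π p) / z) : Amb m)) (𝓝 (u p))
      (𝓝[Mset t] (Emap C.π u v p)) :=
  tendsto_nhdsWithin_iff.2 ⟨gam_eq h hp h0 ▸ (an_br h hp h0).1.continuousAt, (an_br h hp h0).2⟩

theorem ev_br (h : Mod C U u v t) (hp : p ∈ U) (h0 : u p = 0 → v p = 0) :
    ∀ᶠ z in 𝓝 (u p), Pc C U u v t (C.π p) z ∈ U ∧ C.π (Pc C U u v t (C.π p) z) = C.π p ∧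
      u (Pc C U u v t (C.π p) z) = z ∧ v (Pc C U u v t (C.π p) z) = t (C.π p) / z := by
  filter_upwards [(tendsto_br h hp h0).eventually (ev_Qc h hp)] with x hx
  exact ⟨hx.1, congrArg Prod.fst hx.2, congrArg (fun w : Amb m => w.2.1) hx.2,
    congrArg (fun w : Amb m => w.2.2) hx.2⟩

theorem holF_br (h : Mod C U u v t) (hp : p ∈ U) (h0 : u p = 0 → v p = 0) :
    HolF C (C.π p) (Pc C U u v t (C.π p)) (u p) := by
  refine ⟨?_, (ev_br h hp h0).mono fun z hz => hz.2.1, fun f hf => ?_⟩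
  · rw [ContinuousAt, Pc_self h hp h0]
    exact (tendsto_Qc h hp).comp (tendsto_br h hp h0)
  · rw [Pc_self h hp h0] at hf
    exact an_Qc h hp hf (an_br h hp h0).1 (gam_eq h hp h0) (an_br h hp h0).2

theorem ev_holF_br (h : Mod C U u v t) (hp : p ∈ U) (h0 : u p = 0 → v p = 0) :
    ∀ᶠ z in 𝓝 (u p), HolF C (C.π p) (Pc C U u v t (C.π p)) z := by
  filter_upwards [ev_br h hp h0] with z ⟨h1, h2, h3, h4⟩
  have h5 := holF_br h h1 (fun h6 => by rw [h4, ← h3, h6, div_zero])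
  rwa [h2, h3] at h5

end Chart

end Vale.Agent.P273SD

end
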