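import Vale.Agent.P273.H183.Fam

/-!
Isomorphisms of fibres of families of stable curves, and the statement that the isomorphisms form a
proper family (separatedness of the moduli stack). Definitions only.
-/

noncomputable section

namespace Vale.Agent.P273SD

open Set Filter Topology Vale.Agent.P273.H183

variable {L : Type} {m m' : ℕ}

/-- The function `F` is holomorphic at the point `p` of the fibre over `b`. -/
def FH (C : Fam L m) (b : Fin m → ℂ) (F : C.X → ℂ) (p : C.X) : Prop :=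
  ∃ g, C.hol g p ∧ F =ᶠ[𝓝[C.fib b] p] g

/-- `φ` is an isomorphism of the fibre of `C` over `b` with the fibre of `C'` over `b'`. -/
structure FIso (C : Fam L m) (b : Fin m → ℂ) (C' : Fam L m') (b' : Fin m' → ℂ)
    (φ : C.X → C'.X) : Prop where
  bij : BijOn φ (C.fib b) (C'.fib b')
  cont : ContinuousOn φ (C.fib b)
  hol : ∀ p ∈ C.fib b, ∀ f, C'.hol f (φ p) → FH C b (fun q => f (φ q)) p
  mark : ∀ i, φ (C.s i b) = C'.s i b'

/-- The pairs `(j, q)` with `j` along `l` and `q` in the fibre over `b j`, near `p`. -/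
def near (C : Fam L m) {ι : Type} (l : Filter ι) (b : ι → Fin m → ℂ) (p : C.X) :
    Filter (ι × C.X) :=
  (l ×ˢ 𝓝 p) ⊓ 𝓟 {x | C.π x.2 = b x.1}

/-- The inverse of an isomorphism of fibres is an isomorphism of fibres. -/
def Symm : Prop :=
  ∀ (L : Type) (m m' : ℕ) (C : Fam L m) (C' : Fam L m'), C.IsStable → C'.IsStable →
    ∀ b ∈ C.B, ∀ b' ∈ C'.B, ∀ φ, FIso C b C' b' φ →
      ∃ ψ, FIso C' b' C b ψ ∧ InvOn ψ φ (C.fib b) (C'.fib b')

/-- Isomorphisms of fibres over convergent points have a limit along every ultrafilter, which is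
an isomorphism of the limit fibres; the convergence is uniform. -/
def Proper : Prop :=
  ∀ (L : Type) [Finite L] (m m' : ℕ) (C : Fam L m) (C' : Fam L m'), C.IsStable → C'.IsStable →
    ∀ (ι : Type) (𝒰 : Ultrafilter ι) (b : ι → Fin m → ℂ) (b' : ι → Fin m' → ℂ)
      (φ : ι → C.X → C'.X), ∀ b₀ ∈ C.B, ∀ b₀' ∈ C'.B,
      Tendsto b 𝒰 (𝓝 b₀) → Tendsto b' 𝒰 (𝓝 b₀') →
      (∀ᶠ j in (𝒰 : Filter ι), FIso C (b j) C' (b' j) (φ j)) →
      ∃ φ₀, FIso C b₀ C' b₀' φ₀ ∧ ∀ p ∈ C.fib b₀,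
        Tendsto (fun x : ι × C.X => φ x.1 x.2) (near C 𝒰 b p) (𝓝 (φ₀ p))

end Vale.Agent.P273SD

end
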