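import Vale.Agent.P273SD.Zal

/-!
An injective holomorphic map of the punctured plane into a fibre has a limit at the puncture.
-/

set_option linter.unusedSectionVars false
set_option linter.unusedVariables false

noncomputable section

namespace Vale.Agent.P273SD

open Set Filter Topology Metric Vale.Agent.P273.H183 Vale.Agent.P273.H948

variable {L : Type} {m : ℕ} {ι : Type} {C : Fam L m} {b : Fin m → ℂ} {a : ℂ → C.X}

theorem EH.resc {l : Filter ι} {b : ι → Fin m → ℂ} {g : ι → ℂ → C.X} {z₀ : ℂ}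
    (hh : EH C l b g z₀) {σ : ι → ℂ → ℂ} {ζ : ℂ}
    (h1 : Tendsto (fun y : ι × ℂ => σ y.1 y.2) (l ×ˢ 𝓝 ζ) (𝓝 z₀))
    (h2 : ∀ j z, AnalyticAt ℂ (σ j) z) : EH C l b (fun j ζ => g j (σ j ζ)) ζ := by
  filter_upwards [(tendsto_fst.prodMk h1).eventually hh] with y hy
  exact HolF.comp (k := σ y.1) hy (h2 _ _)

theorem tendsto_aff {l : Filter ι} {w : ι → ℂ} {ρ : ι → ℝ} {z₀ : ℂ} (hw : Tendsto w l (𝓝 z₀))
    (hρ : Tendsto ρ l (𝓝 0)) (ζ : ℂ) :
    Tendsto (fun y : ι × ℂ => w y.1 + (ρ y.1 : ℂ) * y.2) (l ×ˢ 𝓝 ζ) (𝓝 z₀) := by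
  simpa using (hw.comp tendsto_fst).add
    ((((Complex.continuous_ofReal.tendsto 0).comp hρ).comp tendsto_fst).mul tendsto_snd)

/-- An injective holomorphic map of the punctured plane into the smooth part of a fibre. -/
structure Pun (C : Fam L m) (b : Fin m → ℂ) (a : ℂ → C.X) : Prop where
  hol : ∀ w ≠ 0, HolF C b a w
  sm : ∀ w ≠ 0, Sm C (a w)
  inj : ∀ w ≠ 0, ∀ w' ≠ 0, a w = a w' → w = w'

theorem Pun.inv (h : Pun C b a) : Pun C b fun w => a w⁻¹ :=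
  ⟨fun w hw => HolF.comp (k := fun w => w⁻¹) (h.hol _ (inv_ne_zero hw)) (analyticAt_inv hw),
    fun w hw => h.sm _ (inv_ne_zero hw),
    fun w hw w' hw' e => inv_injective (h.inj _ (inv_ne_zero hw) _ (inv_ne_zero hw') e)⟩

theorem Pun.const {𝒰 : Ultrafilter ι} (hC : C.IsStable) (h : Pun C b a) {σ : ι → ℂ → ℂ}
    {Ω : Set ℂ} (hΩ : IsOpen Ω) (hΩ' : IsPreconnected Ω) (h2 : ∀ j z, AnalyticAt ℂ (σ j) z)
    (h1 : ∀ ζ ∈ Ω, Tendsto (fun y : ι × ℂ => σ y.1 y.2) ((𝒰 : Filter ι) ×ˢ 𝓝 ζ) (𝓝[≠] 0))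
    {g₀ : ℂ → C.X} (hc : ∀ ζ ∈ Ω, CC C 𝒰 (fun j ζ => a (σ j ζ)) ζ (g₀ ζ)) {z₀ : ℂ} (hz : z₀ ∈ Ω) :
    ∀ z ∈ Ω, g₀ z = g₀ z₀ := by
  have hE : ∀ ζ ∈ Ω, EH C 𝒰 (fun _ => b) (fun j ζ => a (σ j ζ)) ζ := fun ζ hζ => by
    filter_upwards [(h1 ζ hζ).eventually self_mem_nhdsWithin] with y hy
    exact HolF.comp (k := σ y.1) (h.hol _ hy) (h2 _ _)
  have hc' : ∀ ζ ∈ Ω, ∀ᶠ z in 𝓝 ζ, CC C 𝒰 (fun j ζ => a (σ j ζ)) z (g₀ z) := fun ζ hζ =>
    (hΩ.eventually_mem hζ).mono hc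
  refine const_of_ev hC hΩ' (fun z hz => holF_lim hC tendsto_const_nhds (hE z hz) (hc' z hz)) hz ?_
  by_cases hs : Sm C (g₀ z₀)
  · refine hur_sm hC tendsto_const_nhds (hE _ hz) (hc' _ hz) hs (σ := fun _ => g₀ z₀)
      tendsto_const_nhds (Eventually.of_forall fun _ =>
        (hc _ hz).fib hC tendsto_const_nhds (hE _ hz)) ?_
    by_cases h3 : ∃ w ≠ 0, a w = g₀ z₀
    · obtain ⟨w, hw, h3⟩ := h3
      filter_upwards [(h1 _ hz).eventually self_mem_nhdsWithin,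
        (h1 _ hz).eventually (mem_nhdsWithin_of_mem_nhds (isOpen_ne.mem_nhds hw.symm))]
        with y h4 h5 h6
      exact h5 (h.inj _ h4 _ hw (h6.trans h3.symm))
    · filter_upwards [(h1 _ hz).eventually self_mem_nhdsWithin] with y h4 h5
      exact h3 ⟨_, h4, h5⟩
  · exact hur_node hC tendsto_const_nhds (hE _ hz) (hc' _ hz) hs
      (((h1 _ hz).eventually self_mem_nhdsWithin).mono fun y hy => h.sm _ hy)

/-- The images of small circles are small. -/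
theorem Pun.loops {𝒰 : Ultrafilter ι} (hC : C.IsStable) (hb : b ∈ C.B) (h : Pun C b a)
    {s : ι → ℂ} (hs : Tendsto s 𝒰 (𝓝[≠] 0)) :
    ∃ q, ∀ w ≠ 0, CC C 𝒰 (fun j w => a (s j * w)) w q := by
  have : Nonempty C.X := ⟨a 0⟩
  have key : ∀ {σ : ι → ℂ → ℂ} {ζ w : ℂ}, w ≠ 0 →
      Tendsto (fun y : ι × ℂ => σ y.1 y.2) ((𝒰 : Filter ι) ×ˢ 𝓝 ζ) (𝓝 w) →
      Tendsto (fun y : ι × ℂ => s y.1 * σ y.1 y.2) ((𝒰 : Filter ι) ×ˢ 𝓝 ζ) (𝓝[≠] 0) := by
    intro σ ζ w hw h1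
    refine tendsto_nhdsWithin_iff.2 ⟨?_, ?_⟩
    · simpa using ((hs.mono_right nhdsWithin_le_nhds).comp tendsto_fst).mul h1
    · filter_upwards [(hs.comp tendsto_fst).eventually self_mem_nhdsWithin,
        h1.eventually (isOpen_ne.mem_nhds hw)] with y h2 h3 using mul_ne_zero h2 h3
  have hN : ∀ w ≠ 0, Nrm C 𝒰 (fun j w => a (s j * w)) w := by
    intro w₀ hw₀
    by_contra hn
    have hE : EH C 𝒰 (fun _ => b) (fun j w => a (s j * w)) w₀ := by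
      filter_upwards [(key (σ := fun _ z => z) hw₀ tendsto_snd).eventually self_mem_nhdsWithin]
        with y hy
      exact HolF.comp (k := fun w => s y.1 * w) (h.hol _ hy) (by fun_prop)
    obtain ⟨w, ρ, h1, h2, -, h4, ζ, h5⟩ := zalcman hC hb tendsto_const_nhds hE hn
    exact h5 (h.const hC (σ := fun j ζ => s j * (w j + ρ j * ζ)) isOpen_univ isPreconnected_univ
      (fun j z => by fun_prop)
      (fun ζ _ => key (σ := fun j ζ => w j + ρ j * ζ) hw₀ (tendsto_aff h1 h2 ζ))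
      (fun ζ _ => ((h4 ζ).cc hC).self_of_nhds) (mem_univ 0) ζ (mem_univ _))
  have h1 := h.const hC (σ := fun j ζ => s j * ζ) (Ω := {0}ᶜ) isOpen_compl_singleton
    (isConnected_compl_singleton_of_one_lt_rank (by simp) 0).isPreconnected
    (fun j z => by fun_prop) (fun ζ hζ => key (σ := fun _ z => z) hζ tendsto_snd)
    (fun ζ hζ => ((hN ζ hζ).cc hC).self_of_nhds) (z₀ := 1) one_ne_zero
  exact ⟨_, fun w hw => h1 w hw ▸ ((hN w hw).cc hC).self_of_nhds⟩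

theorem loop_ev {l : Filter ι} {s : ι → ℂ} {q : C.X} (hs : ∀ᶠ j in l, s j ≠ 0)
    (h : ∀ w ≠ 0, CC C l (fun j w => a (s j * w)) w q) {O : Set C.X} (hO : O ∈ 𝓝 q) :
    ∀ᶠ j in l, ∀ z, ‖z‖ = ‖s j‖ → a z ∈ O := by
  filter_upwards [hs, ev_compact (isCompact_sphere (0 : ℂ) 1) (P := fun j w => a (s j * w) ∈ O)
    fun w hw => h w (by rintro rfl; simp at hw) hO] with j h1 h2 z hz
  have h3 := h2 (z / s j) (by
    rw [mem_sphere_zero_iff_norm, norm_div, hz, div_self (norm_ne_zero_iff.2 h1)])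
  rwa [mul_div_cancel₀ _ h1] at h3

/-- The maximum principle on an annulus. -/
theorem annulus {F : ℂ → ℂ} {c₁ c₂ z₂ : ℂ} {R r : ℝ} (hr : 0 < r) (hz : z₂ ≠ 0) (hR : ‖z₂‖ ≤ R)
    (hF : ∀ z, ‖z₂‖ ≤ ‖z‖ → ‖z‖ ≤ R → AnalyticAt ℂ F z ∧ ‖F z - c₁‖ ≤ r) (hc : ‖c₂ - c₁‖ = r)
    (h1 : ∀ z, ‖z‖ = R → ‖F z - c₁‖ < r / 16) (h2 : ∀ z, ‖z‖ = ‖z₂‖ → ‖F z - c₂‖ < r / 16) :
    False := by
  have hz' : 0 < ‖z₂‖ := norm_pos_iff.2 hz
  have hn : ∀ τ : ℝ, 0 ≤ τ → ‖(τ : ℂ) * z₂‖ = τ * ‖z₂‖ := fun τ hτ => by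
    rw [norm_mul, Complex.norm_real, Real.norm_of_nonneg hτ]
  have h3 : 1 ≤ R / ‖z₂‖ := (one_le_div hz').2 hR
  have h4 : ContinuousOn (fun τ : ℝ => ‖F (τ * z₂) - c₁‖) (Icc 1 (R / ‖z₂‖)) := by
    intro τ hτ
    have h5 := (hF (τ * z₂) (by rw [hn τ (by linarith [hτ.1])]; nlinarith [hτ.1])
      (by rw [hn τ (by linarith [hτ.1])]; exact (le_div_iff₀ hz').1 hτ.2)).1.continuousAt
    exact (((ContinuousAt.comp (f := fun τ : ℝ => (τ : ℂ) * z₂) h5 (by fun_prop)).sub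
      continuousAt_const).norm).continuousWithinAt
  have tri : ∀ x : ℂ, r ≤ ‖x - c₁‖ + ‖x - c₂‖ := fun x => by
    have := norm_sub_le (x - c₁) (x - c₂)
    rwa [sub_sub_sub_cancel_left, hc] at this
  obtain ⟨τ, hτ, h5⟩ := intermediate_value_Icc' h3 h4 (show r / 2 ∈ _ from ⟨by
    have := h1 (((R / ‖z₂‖ : ℝ) : ℂ) * z₂) (by
      rw [hn _ (by linarith), div_mul_cancel₀ _ hz'.ne'])
    show ‖F (((R / ‖z₂‖ : ℝ) : ℂ) * z₂) - c₁‖ ≤ r / 2
    linarith, by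
    have := h2 z₂ rfl
    have := tri (F z₂)
    show r / 2 ≤ ‖F (((1 : ℝ) : ℂ) * z₂) - c₁‖
    rw [Complex.ofReal_one, one_mul]
    linarith⟩)
  have h5 : ‖F (τ * z₂) - c₁‖ = r / 2 := h5
  set A : Set ℂ := {z | ‖z₂‖ < ‖z‖ ∧ ‖z‖ < R} with hA
  have hAo : IsOpen A := (isOpen_lt continuous_const continuous_norm).inter
    (isOpen_lt continuous_norm continuous_const)
  have hcl : closure A ⊆ {z | ‖z₂‖ ≤ ‖z‖ ∧ ‖z‖ ≤ R} :=
    closure_minimal (fun z hz => ⟨hz.1.le, hz.2.le⟩)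
      ((isClosed_le continuous_const continuous_norm).inter
        (isClosed_le continuous_norm continuous_const))
  have h6 := hn τ (by linarith [hτ.1])
  have hin : (τ : ℂ) * z₂ ∈ A := by
    refine ⟨lt_of_le_of_ne (by rw [h6]; nlinarith [hτ.1]) fun e => ?_,
      lt_of_le_of_ne (by rw [h6]; exact (le_div_iff₀ hz').1 hτ.2) fun e => ?_⟩
    · have := h2 _ e.symm
      have := tri (F (τ * z₂))
      linarith
    · have := h1 _ e
      linarith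
  have h7 := Complex.norm_le_of_forall_mem_frontier_norm_le (f := fun z => (F z - c₁) * (F z - c₂))
    (U := A) (isBounded_ball.subset (t := ball 0 R) fun z hz => mem_ball_zero_iff.2 hz.2)
    (DifferentiableOn.diffContOnCl fun z hz =>
      (((hF z (hcl hz).1 (hcl hz).2).1.differentiableAt.sub_const _).mul
        ((hF z (hcl hz).1 (hcl hz).2).1.differentiableAt.sub_const _)).differentiableWithinAt)
    (C := r / 16 * (2 * r)) (fun z hz => by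
      rw [hAo.frontier_eq] at hz
      obtain ⟨h8, h9⟩ := hcl hz.1
      have h10 := (hF z h8 h9).2
      have h11 : ‖F z - c₂‖ ≤ 2 * r := by
        have := norm_sub_le (F z - c₁) (c₂ - c₁)
        rw [sub_sub_sub_cancel_right, hc] at this
        linarith
      rw [norm_mul]
      rcases h8.eq_or_lt with e | e
      · have := h2 z e.symm
        nlinarith [norm_nonneg (F z - c₁), norm_nonneg (F z - c₂)]
      · have := h1 z (le_antisymm h9 (not_lt.1 fun e' => hz.2 ⟨e, e'⟩))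
        nlinarith [norm_nonneg (F z - c₁), norm_nonneg (F z - c₂)]) (subset_closure hin)
  have h8 := tri (F (τ * z₂))
  simp only [norm_mul, h5] at h7
  nlinarith

/-- **The limit at the puncture.** -/
theorem Pun.limit (hC : C.IsStable) (hb : b ∈ C.B) (h : Pun C b a) :
    ∃ q, Tendsto a (𝓝[≠] 0) (𝓝 q) := by
  have := hC.2.1
  have := wlc hC
  set 𝒲 : Ultrafilter ℂ := Ultrafilter.of (𝓝[≠] (0 : ℂ)) with h𝒲
  have hle : (𝒲 : Filter ℂ) ≤ 𝓝[≠] 0 := Ultrafilter.of_le _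
  have hne : ∀ᶠ w in (𝒲 : Filter ℂ), w ≠ 0 := hle self_mem_nhdsWithin
  obtain ⟨q, hq⟩ := h.loops (𝒰 := 𝒲) hC hb (s := fun w => w) hle
  have hqb : C.π q = b := tendsto_nhds_unique (((cont_π hC).tendsto q).comp (hq 1 one_ne_zero).pt)
    (tendsto_const_nhds.congr' (hne.mono fun w hw => Eq.symm (h.hol _ (by simpa using hw)).mem))
  refine ⟨q, ?_⟩
  by_contra hcon
  obtain ⟨U, u, v, t, hU, hm⟩ := exists_mod hC q
  obtain ⟨K, hK1, hK2, hK⟩ := local_compact_nhds (hm.isOpen.mem_nhds hU)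
  obtain ⟨O', hO', hfr⟩ := not_tendsto_iff_exists_frequently_notMem.1 hcon
  set O := interior (O' ∩ K) with hO
  have hqO : q ∈ O := mem_interior_iff_mem_nhds.2 (inter_mem hO' hK1)
  set N : C.X → ℝ := fun x => dist (u x, v x) (u q, v q) with hN
  have hNc : ∀ x ∈ U, ContinuousAt N x := fun x hx =>
    ((hm.cont_u hx).prodMk (hm.cont_v hx)).dist continuousAt_const
  obtain ⟨r', hr', h1⟩ := ((hK.inter_left (isCompact_fib hC hb).isClosed).diff
    (isOpen_interior (s := O' ∩ K))).exists_forall_le' (f := N) (a := 0)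
    (fun x hx => (hNc x (hK2 hx.1.2)).continuousWithinAt) fun x hx => by
      refine dist_pos.2 fun e => hx.2 ?_
      have h2 : x = q := hm.inj (hK2 hx.1.2) hU (by
        simp only [Emap, show C.π x = b from hx.1.1, hqb, e])
      rwa [h2]
  set r := r' / 2 with hr
  have hr0 : 0 < r := by positivity
  have hDO : ∀ x ∈ C.fib b, x ∈ K → N x ≤ r → x ∈ O := fun x h2 h3 h4 => by
    by_contra h5
    linarith [h1 x ⟨⟨h2, h3⟩, h5⟩]
  set A := O ∩ N ⁻¹' Iio r with hA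
  have hOK : O ⊆ K := fun x hx => (interior_subset hx).2
  have hAo : IsOpen A := ContinuousOn.isOpen_inter_preimage
    (fun x hx => (hNc x (hK2 (hOK hx))).continuousWithinAt) isOpen_interior isOpen_Iio
  have hD : IsClosed (K ∩ N ⁻¹' Iic r) := ContinuousOn.preimage_isClosed_of_isClosed
    (fun x hx => (hNc x (hK2 hx)).continuousWithinAt) hK.isClosed isClosed_Iic
  have hqA : q ∈ A := ⟨hqO, by simpa [hN] using hr0⟩
  have hex : ∀ᶠ w in (𝒲 : Filter ℂ), ∃ z₂, z₂ ≠ 0 ∧ ‖z₂‖ ≤ ‖w‖ ∧ N (a z₂) = r ∧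
      ∀ z, ‖z₂‖ ≤ ‖z‖ → ‖z‖ ≤ ‖w‖ → a z ∈ K ∩ N ⁻¹' Iic r := by
    filter_upwards [hne, loop_ev hne hq (hAo.mem_nhds hqA)] with w hw h2
    obtain ⟨z₁, h3, h4, h5⟩ := (hfr.and_eventually (Eventually.and self_mem_nhdsWithin
      (mem_nhdsWithin_of_mem_nhds (ball_mem_nhds 0 (norm_pos_iff.2 hw))))).exists
    have h6 : IsCompact ((closedBall (0 : ℂ) ‖w‖ \ ball 0 ‖z₁‖) ∩ a ⁻¹' Aᶜ) := by
      have h7 : IsCompact (closedBall (0 : ℂ) ‖w‖ \ ball 0 ‖z₁‖) :=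
        (isCompact_closedBall _ _).diff isOpen_ball
      refine h7.of_isClosed_subset (ContinuousOn.preimage_isClosed_of_isClosed
        (fun z hz => (h.hol z ?_).cont.continuousWithinAt) h7.isClosed hAo.isClosed_compl)
        inter_subset_left
      rintro rfl
      exact hz.2 (mem_ball_self (norm_pos_iff.2 h4))
    obtain ⟨z₂, ⟨⟨h7, h8⟩, h9⟩, h10⟩ := h6.exists_isMaxOn
      ⟨z₁, ⟨mem_closedBall_zero_iff.2 (mem_ball_zero_iff.1 h5).le, by simp⟩,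
        fun e => h3 (interior_subset e.1).1⟩ continuous_norm.continuousOn
    rw [mem_closedBall_zero_iff] at h7
    rw [mem_ball_zero_iff, not_lt] at h8
    have h11 : 0 < ‖z₂‖ := (norm_pos_iff.2 h4).trans_le h8
    have h12 : ∀ z, ‖z₂‖ < ‖z‖ → ‖z‖ ≤ ‖w‖ → a z ∈ K ∩ N ⁻¹' Iic r := fun z h13 h14 => by
      have h15 : a z ∈ A := by
        by_contra h15
        exact absurd (h10 ⟨⟨mem_closedBall_zero_iff.2 h14,
          by rw [mem_ball_zero_iff, not_lt]; linarith⟩, h15⟩) (not_le.2 h13)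
      exact ⟨hOK h15.1, le_of_lt (a := N (a z)) h15.2⟩
    have h13 : ‖z₂‖ < ‖w‖ := lt_of_le_of_ne h7 fun e => h9 (h2 _ e)
    have h14 : ∀ z, ‖z₂‖ ≤ ‖z‖ → ‖z‖ ≤ ‖w‖ → a z ∈ K ∩ N ⁻¹' Iic r := fun z h15 h16 => by
      rcases h15.eq_or_lt with e | e
      · have h17 : Tendsto (fun τ : ℝ => (τ : ℂ) * z) (𝓝[>] 1) (𝓝 z) := by
          have : Tendsto (fun τ : ℝ => (τ : ℂ) * z) (𝓝 1) (𝓝 (((1 : ℝ) : ℂ) * z)) :=
            Continuous.tendsto (by fun_prop) 1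
          rw [Complex.ofReal_one, one_mul] at this
          exact this.mono_left nhdsWithin_le_nhds
        refine hD.mem_of_tendsto ((h.hol z (norm_pos_iff.1 (e ▸ h11))).cont.tendsto.comp h17) ?_
        filter_upwards [h17.norm.eventually (gt_mem_nhds (e ▸ h13)), self_mem_nhdsWithin]
          with τ h18 h19
        refine h12 _ ?_ h18.le
        have h20 : (1 : ℝ) < τ := h19
        rw [norm_mul, Complex.norm_real, Real.norm_of_nonneg (by linarith), ← e]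
        nlinarith
      · exact h12 z e h16
    have h15 := h14 z₂ le_rfl h7
    have h16 : z₂ ≠ 0 := norm_pos_iff.1 h11
    exact ⟨z₂, h16, h7, le_antisymm h15.2 (not_lt.1 fun e =>
      h9 ⟨hDO _ (h.hol _ h16).mem h15.1 h15.2, e⟩), h14⟩
  obtain ⟨s, hs⟩ := hex.choice
  have hs0 : Tendsto s 𝒲 (𝓝[≠] 0) := tendsto_nhdsWithin_iff.2
    ⟨tendsto_zero_iff_norm_tendsto_zero.2 (squeeze_zero' (Eventually.of_forall fun _ =>
      norm_nonneg _) (hs.mono fun w hw => hw.2.1) (tendsto_zero_iff_norm_tendsto_zero.1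
        (tendsto_id'.2 (hle.trans nhdsWithin_le_nhds)))), hs.mono fun w hw => hw.1⟩
  obtain ⟨q₂, hq₂⟩ := h.loops (𝒰 := 𝒲) hC hb hs0
  have h2 : Tendsto (fun w => a (s w)) 𝒲 (𝓝 q₂) := by simpa using (hq₂ 1 one_ne_zero).pt
  have h3 : q₂ ∈ K := hK.isClosed.mem_of_tendsto h2
    (hs.mono fun w hw => (hw.2.2.2 _ le_rfl hw.2.1).1)
  have h4 : N q₂ = r := tendsto_nhds_unique ((hNc _ (hK2 h3)).tendsto.comp h2)
    (tendsto_const_nhds.congr' (hs.mono fun w hw => hw.2.2.1.symm))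
  have fin : ∀ {u' v' : C.X → ℂ}, Mod C U u' v' t → (∀ x, ‖u' x - u' q‖ ≤ N x) →
      ‖u' q₂ - u' q‖ = r → False := by
    intro u' v' hm' h5 h6
    have h7 : ∀ x ∈ U, {y | ‖u' y - u' x‖ < r / 16} ∈ 𝓝 x := fun x hx => by
      filter_upwards [Metric.tendsto_nhds.1 (hm'.cont_u hx) (r / 16) (by positivity)] with y hy
      rwa [dist_eq_norm] at hy
    obtain ⟨w, ⟨h8, h9, -, h10⟩, h11, h12⟩ := (hs.and ((loop_ev hne hq (h7 q hU)).and
      (loop_ev (hs.mono fun w hw => hw.1) hq₂ (h7 q₂ (hK2 h3))))).exists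
    refine annulus (F := fun z => u' (a z)) hr0 h8 h9 (fun z h13 h14 => ⟨?_, ?_⟩) h6 h11 h12
    · exact (h.hol z (norm_pos_iff.1 ((norm_pos_iff.2 h8).trans_le h13))).an_u hm'
        (hK2 (h10 z h13 h14).1)
    · exact (h5 _).trans (h10 z h13 h14).2
  have h5 : ∀ x, N x = max ‖u x - u q‖ ‖v x - v q‖ := fun x => by
    show dist (u x, v x) (u q, v q) = _
    rw [Prod.dist_eq, dist_eq_norm, dist_eq_norm]
  rw [h5] at h4
  rcases max_choice ‖u q₂ - u q‖ ‖v q₂ - v q‖ with e | e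
  · exact fin hm (fun x => h5 x ▸ le_max_left _ _) (e ▸ h4)
  · exact fin hm.swap (fun x => h5 x ▸ le_max_right _ _) (e ▸ h4)

end Vale.Agent.P273SD

end
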