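import Vale.Agent.P273SD.Fh
import Vale.Agent.P275KR.Lim

/-!
Limits of holomorphic maps into the fibres of a family of stable curves; theorems of Hurwitz.
-/

set_option linter.unusedSectionVars false
set_option linter.unusedVariables false

noncomputable section

namespace Vale.Agent.P273SD

open Set Filter Topology Metric Vale.Agent.P273.H183 Vale.Agent.P273.H948

variable {L : Type} {m : ℕ} {ι : Type} {C : Fam L m}

theorem ev_ball {l : Filter ι} {z : ℂ} {P : ι → ℂ → Prop}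
    (h : ∀ᶠ x in l ×ˢ 𝓝 z, P x.1 x.2) : ∃ r > 0, ∀ᶠ j in l, ∀ w ∈ ball z r, P j w := by
  obtain ⟨pa, ha, pb, hb, h1⟩ := eventually_prod_iff.1 h
  obtain ⟨r, hr, h2⟩ := Metric.eventually_nhds_iff_ball.1 hb
  exact ⟨r, hr, ha.mono fun j hj w hw => h1 hj (h2 w hw)⟩

theorem ev_of_ball {l : Filter ι} {z₀ z : ℂ} {r : ℝ} {P : ι → ℂ → Prop} (hz : z ∈ ball z₀ r)
    (h : ∀ᶠ j in l, ∀ w ∈ ball z₀ r, P j w) : ∀ᶠ x in l ×ˢ 𝓝 z, P x.1 x.2 :=
  (h.prod_mk (isOpen_ball.eventually_mem hz)).mono fun x hx => hx.1 _ hx.2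

theorem ev_compact {l : Filter ι} {K : Set ℂ} (hK : IsCompact K) {P : ι → ℂ → Prop}
    (h : ∀ z ∈ K, ∀ᶠ x in l ×ˢ 𝓝 z, P x.1 x.2) : ∀ᶠ j in l, ∀ z ∈ K, P j z :=
  (Eventually.curry (p := fun x => P x.1 x.2) (hK.mem_prod_nhdsSet_of_forall h)).mono
    fun _ hj => hj.self_of_nhdsSet

theorem wlc (hC : C.IsStable) : WeaklyLocallyCompactSpace C.X := by
  refine ⟨fun p => ?_⟩
  obtain ⟨K, h1, h2, h3⟩ := local_compact_nhds (hC.1.mem_nhds (hC.2.2.1 p))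
  exact ⟨_, hC.2.2.2.1 K h2 h3, (cont_π hC).continuousAt h1⟩

theorem regular (hC : C.IsStable) : RegularSpace C.X := by
  have := hC.2.1
  have := wlc hC
  infer_instance

theorem ev_fib_sub (hC : C.IsStable) {b₀ : Fin m → ℂ} (hb : b₀ ∈ C.B) {O : Set C.X}
    (hO : IsOpen O) (h : C.fib b₀ ⊆ O) : ∀ᶠ b in 𝓝 b₀, C.fib b ⊆ O := by
  obtain ⟨K, h1, h2, h3⟩ := local_compact_nhds (hC.1.mem_nhds hb)
  have h4 : IsCompact (C.π '' (C.π ⁻¹' K \ O)) :=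
    ((hC.2.2.2.1 K h2 h3).diff hO).image (cont_π hC)
  have h5 : b₀ ∉ C.π '' (C.π ⁻¹' K \ O) := by
    rintro ⟨q, hq, e⟩
    exact hq.2 (h e)
  filter_upwards [h1, h4.isClosed.isOpen_compl.mem_nhds h5] with b h6 h7 q hq
  by_contra h8
  exact h7 ⟨q, ⟨by rw [mem_preimage, show C.π q = b from hq]; exact h6, h8⟩, hq⟩

/-- Continuous convergence of the maps `g j` at `z` to the point `q`. -/
def CC (C : Fam L m) (l : Filter ι) (g : ι → ℂ → C.X) (z : ℂ) (q : C.X) : Prop :=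
  Tendsto (fun x : ι × ℂ => g x.1 x.2) (l ×ˢ 𝓝 z) (𝓝 q)

/-- The maps `g j` are holomorphic near `z`, into the fibres over `b j`. -/
def EH (C : Fam L m) (l : Filter ι) (b : ι → Fin m → ℂ) (g : ι → ℂ → C.X) (z : ℂ) : Prop :=
  ∀ᶠ x in l ×ˢ 𝓝 z, HolF C (b x.1) (g x.1) x.2

variable {l : Filter ι} {b : ι → Fin m → ℂ} {b₀ : Fin m → ℂ} {g : ι → ℂ → C.X} {g₀ : ℂ → C.X}
  {z₀ : ℂ}

theorem tendsto_pt (l : Filter ι) (z : ℂ) : Tendsto (fun j => (j, z)) l (l ×ˢ 𝓝 z) :=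
  tendsto_id.prodMk tendsto_const_nhds

theorem CC.pt {z : ℂ} {q : C.X} (h : CC C l g z q) : Tendsto (fun j => g j z) l (𝓝 q) :=
  Tendsto.comp (g := fun x : ι × ℂ => g x.1 x.2) h (tendsto_pt l z)

theorem EH.pt {z : ℂ} (h : EH C l b g z) : ∀ᶠ j in l, HolF C (b j) (g j) z :=
  (tendsto_pt l z).eventually h

theorem EH.ev (h : EH C l b g z₀) : ∀ᶠ z in 𝓝 z₀, EH C l b g z := by
  obtain ⟨r, hr, h1⟩ := ev_ball (P := fun j w => HolF C (b j) (g j) w) h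
  filter_upwards [ball_mem_nhds z₀ hr] with z hz using ev_of_ball hz h1

theorem CC.fib [l.NeBot] (hC : C.IsStable) (hb : Tendsto b l (𝓝 b₀)) {z : ℂ} {q : C.X}
    (h : CC C l g z q) (hh : EH C l b g z) : q ∈ C.fib b₀ :=
  tendsto_nhds_unique (((cont_π hC).tendsto q).comp h.pt)
    (hb.congr' (hh.pt.mono fun _ hj => Eq.symm hj.mem))

theorem cont_of_cc [l.NeBot] (hC : C.IsStable) (h : ∀ᶠ z in 𝓝 z₀, CC C l g z (g₀ z)) :
    ContinuousAt g₀ z₀ := by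
  have := regular hC
  refine (closed_nhds_basis (g₀ z₀)).tendsto_right_iff.2 fun N hN => ?_
  obtain ⟨r, hr, h1⟩ := ev_ball (P := fun j w => g j w ∈ N) (h.self_of_nhds hN.1)
  filter_upwards [h, ball_mem_nhds z₀ hr] with z h2 h3
  exact hN.2.mem_of_tendsto h2.pt (h1.mono fun j hj => hj z h3)

theorem tlu_of_cc [l.NeBot] (hC : C.IsStable) {Ω : Set ℂ} (hΩ : IsOpen Ω)
    (h : ∀ z ∈ Ω, CC C l g z (g₀ z)) {f : C.X → ℂ} (hf : ∀ z ∈ Ω, ContinuousAt f (g₀ z)) :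
    TendstoLocallyUniformlyOn (fun j w => f (g j w)) (fun w => f (g₀ w)) l Ω := by
  rw [tendstoLocallyUniformlyOn_iff_forall_tendsto]
  intro z hz
  rw [hΩ.nhdsWithin_eq hz]
  have h1 : ContinuousAt g₀ z := cont_of_cc hC ((hΩ.eventually_mem hz).mono h)
  have h2 : Tendsto (fun y : ι × ℂ => f (g₀ y.2)) (l ×ˢ 𝓝 z) (𝓝 (f (g₀ z))) :=
    ((hf z hz).tendsto.comp h1).comp tendsto_snd
  have h3 : Tendsto (fun y : ι × ℂ => f (g y.1 y.2)) (l ×ˢ 𝓝 z) (𝓝 (f (g₀ z))) :=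
    (hf z hz).tendsto.comp (h z hz)
  exact (h2.prodMk_nhds h3).mono_right (nhds_le_uniformity _)

section Chart

variable {U : Set C.X} {u v : C.X → ℂ} {t : (Fin m → ℂ) → ℂ}

theorem lim_ball [l.NeBot] (hC : C.IsStable) (hh : EH C l b g z₀)
    (hc : ∀ᶠ z in 𝓝 z₀, CC C l g z (g₀ z)) (h : Mod C U u v t) (hU : g₀ z₀ ∈ U)
    {P : ι → ℂ → Prop} (hP : ∀ᶠ x in l ×ˢ 𝓝 z₀, P x.1 x.2) :
    ∃ r > 0, (∀ᶠ j in l, ∀ w ∈ ball z₀ r, HolF C (b j) (g j) w ∧ g j w ∈ U ∧ P j w) ∧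
      (∀ w ∈ ball z₀ r, g₀ w ∈ U ∧ CC C l g w (g₀ w)) ∧
      TendstoLocallyUniformlyOn (fun j w => u (g j w)) (fun w => u (g₀ w)) l (ball z₀ r) ∧
      TendstoLocallyUniformlyOn (fun j w => v (g j w)) (fun w => v (g₀ w)) l (ball z₀ r) := by
  obtain ⟨r₁, hr₁, h1⟩ := ev_ball (P := fun j w => HolF C (b j) (g j) w ∧ g j w ∈ U ∧ P j w)
    (Eventually.and hh (Eventually.and (hc.self_of_nhds (h.isOpen.mem_nhds hU)) hP))
  obtain ⟨r₂, hr₂, h2⟩ := Metric.eventually_nhds_iff_ball.1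
    (Eventually.and ((cont_of_cc hC hc) (h.isOpen.mem_nhds hU)) hc)
  have s1 : ball z₀ (min r₁ r₂) ⊆ ball z₀ r₁ := ball_subset_ball (min_le_left _ _)
  have s2 : ball z₀ (min r₁ r₂) ⊆ ball z₀ r₂ := ball_subset_ball (min_le_right _ _)
  exact ⟨min r₁ r₂, lt_min hr₁ hr₂, h1.mono fun j hj w hw => hj w (s1 hw),
    fun w hw => h2 w (s2 hw),
    tlu_of_cc hC isOpen_ball (fun w hw => (h2 w (s2 hw)).2) fun w hw => h.cont_u (h2 w (s2 hw)).1,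
    tlu_of_cc hC isOpen_ball (fun w hw => (h2 w (s2 hw)).2) fun w hw => h.cont_v (h2 w (s2 hw)).1⟩

theorem diffOn_u (h : Mod C U u v t) {k : ℂ → C.X} {c : Fin m → ℂ} {Ω : Set ℂ}
    (hk : ∀ w ∈ Ω, HolF C c k w ∧ k w ∈ U) : DifferentiableOn ℂ (fun w => u (k w)) Ω :=
  fun w hw => ((hk w hw).1.an_u h (hk w hw).2).differentiableAt.differentiableWithinAt

theorem eq_of_u (h : Mod C U u v t) {p q : C.X} (hp : p ∈ U) (hq : q ∈ U) (h1 : C.π p = C.π q)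
    (h2 : u p = u q) (h3 : u q ≠ 0) : p = q := by
  refine h.inj hp hq ?_
  have h4 : u q * v p = u q * v q := by rw [h.eqn q hq, ← h1, ← h.eqn p hp, h2]
  simp only [Emap, h1, h2, mul_left_cancel₀ h3 h4]

/-- A coordinate of a disc of smooth points vanishes identically or nowhere. -/
theorem dich (hC : C.IsStable) (h : Mod C U u v t) {k : ℂ → C.X} {c : Fin m → ℂ} {Ω : Set ℂ}
    (hΩ : IsPreconnected Ω) (hk : ∀ w ∈ Ω, HolF C c k w ∧ k w ∈ U ∧ Sm C (k w)) :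
    (∀ w ∈ Ω, u (k w) = 0) ∨ ∀ w ∈ Ω, u (k w) ≠ 0 := by
  refine or_iff_not_imp_right.2 fun h1 => ?_
  push Not at h1
  obtain ⟨z, hz, h1⟩ := h1
  obtain ⟨h2, h3, h4⟩ := hk z hz
  have h5 : v (k z) ≠ 0 := (h4.all hC h h3).resolve_left (not_not.2 h1)
  have h6 : t c = 0 := by rw [← show C.π (k z) = c from h2.mem, ← h.eqn _ h3, h1, zero_mul]
  have h7 : ∀ᶠ w in 𝓝 z, u (k w) = 0 := by
    filter_upwards [h2.fib, h2.cont (h.isOpen.mem_nhds h3),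
      ((h.cont_v h3).tendsto.comp h2.cont) (isOpen_ne.mem_nhds h5)] with w h8 h9 h10
    have h11 := h.eqn _ h9
    rw [h8, h6] at h11
    exact (mul_eq_zero.1 h11).resolve_right h10
  exact AnalyticOnNhd.eqOn_zero_of_preconnected_of_eventuallyEq_zero (𝕜 := ℂ)
    (f := fun w => u (k w)) (fun w hw => (hk w hw).1.an_u h (hk w hw).2.1) hΩ hz h7

end Chart

/-- The limit is holomorphic. -/
theorem holF_lim [l.NeBot] (hC : C.IsStable) (hb : Tendsto b l (𝓝 b₀)) (hh : EH C l b g z₀)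
    (hc : ∀ᶠ z in 𝓝 z₀, CC C l g z (g₀ z)) : HolF C b₀ g₀ z₀ := by
  have h0 : ∀ᶠ w in 𝓝 z₀, C.π (g₀ w) = b₀ := by
    filter_upwards [hc, hh.ev] with w h1 h2 using h1.fib hC hb h2
  refine ⟨cont_of_cc hC hc, h0, fun f hf => ?_⟩
  obtain ⟨U, u, v, t, hU, h⟩ := exists_mod hC (g₀ z₀)
  obtain ⟨r, hr, h1, h2, h3, h4⟩ := lim_ball hC hh hc h hU (P := fun _ _ => True)
    (Eventually.of_forall fun _ => trivial)
  have h5 := (h3.differentiableOn (h1.mono fun j hj =>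
    diffOn_u h fun w hw => ⟨(hj w hw).1, (hj w hw).2.1⟩) isOpen_ball).analyticAt
      (ball_mem_nhds z₀ hr)
  have h6 := (h4.differentiableOn (h1.mono fun j hj =>
    diffOn_u h.swap fun w hw => ⟨(hj w hw).1, (hj w hw).2.1⟩) isOpen_ball).analyticAt
      (ball_mem_nhds z₀ hr)
  obtain ⟨k, hk, e⟩ := (h.hol _ hU f).1 hf
  have h7 : AnalyticAt ℂ (fun w => ((b₀, u (g₀ w), v (g₀ w)) : Amb m)) z₀ :=
    analyticAt_const.prod (h5.prod h6)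
  refine (AnalyticAt.comp_of_eq (g := k) hk h7 (by simp only [Emap, h0.self_of_nhds])).congr ?_
  filter_upwards [h0, (cont_of_cc hC hc).eventually e] with w h8 h9
  simp only [Function.comp_apply, Emap] at h9 ⊢
  rw [h9, h8]

/-- **Hurwitz** at a smooth point. -/
theorem hur_sm [l.NeBot] (hC : C.IsStable) (hb : Tendsto b l (𝓝 b₀)) (hh : EH C l b g z₀)
    (hc : ∀ᶠ z in 𝓝 z₀, CC C l g z (g₀ z)) (hs : Sm C (g₀ z₀)) {σ : ι → C.X}
    (hσ : Tendsto σ l (𝓝 (g₀ z₀))) (hσb : ∀ᶠ j in l, C.π (σ j) = b j)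
    (hne : ∀ᶠ x in l ×ˢ 𝓝 z₀, g x.1 x.2 ≠ σ x.1) : ∀ᶠ z in 𝓝 z₀, g₀ z = g₀ z₀ := by
  obtain ⟨U, u, v, t, hU, h, h0⟩ := hs
  obtain ⟨r, hr, h1, h2, h3, -⟩ := lim_ball hC hh hc h hU (P := fun j w => g j w ≠ σ j) hne
  have h4 : Tendsto (fun j => u (σ j)) l (𝓝 (u (g₀ z₀))) := (h.cont_u hU).tendsto.comp hσ
  have h5 := h3.sub (h4.tendstoUniformlyOn_const (ball z₀ r)).tendstoLocallyUniformlyOn
  have h6 := P275KR.hurwitz isOpen_ball h5 (by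
    filter_upwards [h1, hσb, hσ (h.isOpen.mem_nhds hU), h4 (isOpen_ne.mem_nhds h0)]
      with j hj h7 h8 h9
    refine ⟨(diffOn_u h fun w hw => ⟨(hj w hw).1, (hj w hw).2.1⟩).sub (differentiableOn_const _),
      fun w hw e => (hj w hw).2.2 ?_⟩
    exact eq_of_u h (hj w hw).2.1 h8 (Eq.trans (hj w hw).1.mem h7.symm) (sub_eq_zero.1 e) h9)
    (mem_ball_self hr) (sub_self _)
  have h7 := (holF_lim hC hb hh hc).fib
  filter_upwards [h6, h7, ball_mem_nhds z₀ hr] with z h8 h9 h10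
  exact eq_of_u h (h2 z h10).1 hU (h9.trans h7.self_of_nhds.symm) (sub_eq_zero.1 h8) h0

/-- **Hurwitz** at a node. -/
theorem hur_node {𝒰 : Ultrafilter ι} (hC : C.IsStable) (hb : Tendsto b 𝒰 (𝓝 b₀))
    (hh : EH C 𝒰 b g z₀) (hc : ∀ᶠ z in 𝓝 z₀, CC C 𝒰 g z (g₀ z)) (hs : ¬ Sm C (g₀ z₀))
    (hsm : ∀ᶠ x in (𝒰 : Filter ι) ×ˢ 𝓝 z₀, Sm C (g x.1 x.2)) : ∀ᶠ z in 𝓝 z₀, g₀ z = g₀ z₀ := by
  have key : ∀ {U : Set C.X} {u v : C.X → ℂ} {t : (Fin m → ℂ) → ℂ}, Mod C U u v t → g₀ z₀ ∈ U →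
      ∀ᶠ z in 𝓝 z₀, u (g₀ z) = 0 := by
    intro U u v t h hU
    obtain ⟨r, hr, h1, h2, h3, -⟩ := lim_ball hC hh hc h hU (P := fun j w => Sm C (g j w)) hsm
    rcases Ultrafilter.eventually_or.1
      (h1.mono fun j hj => dich hC h (convex_ball z₀ r).isPreconnected hj) with h4 | h4
    · filter_upwards [ball_mem_nhds z₀ hr] with z hz
      exact tendsto_nhds_unique (h3.tendsto_at hz)
        (tendsto_const_nhds.congr' (h4.mono fun j hj => (hj z hz).symm))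
    · exact P275KR.hurwitz isOpen_ball h3 ((h1.and h4).mono fun j hj =>
        ⟨diffOn_u h fun w hw => ⟨(hj.1 w hw).1, (hj.1 w hw).2.1⟩, hj.2⟩) (mem_ball_self hr)
        (node_of_not_sm hs h hU).1
  obtain ⟨U, u, v, t, hU, h⟩ := exists_mod hC (g₀ z₀)
  have h7 := (holF_lim hC hb hh hc).fib
  filter_upwards [key h hU, key h.swap hU, h7, (cont_of_cc hC hc) (h.isOpen.mem_nhds hU)]
    with z h1 h2 h3 h4
  refine h.inj h4 hU ?_
  simp only [Emap, h1, h2, h3, h7.self_of_nhds, (node_of_not_sm hs h hU).1,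
    (node_of_not_sm hs h hU).2]

end Vale.Agent.P273SD

end
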