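import Vale.Agent.P273SD.Rig

/-!
Normality of injective discs and of strips in the smooth part of the fibres.
-/

set_option linter.unusedSectionVars false
set_option linter.unusedVariables false

noncomputable section

namespace Vale.Agent.P273SD

open Set Filter Topology Metric Vale.Agent.P273.H183 Vale.Agent.P273.H948

variable {L : Type} {m : ℕ} {ι : Type} {C : Fam L m} {𝒰 : Ultrafilter ι} {b : ι → Fin m → ℂ}
  {b₀ : Fin m → ℂ} {g : ι → ℂ → C.X} {g₀ : ℂ → C.X} {z₀ : ℂ}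

/-- A nonconstant entire limit of maps into the smooth parts of the fibres. -/
structure Bub (C : Fam L m) (𝒰 : Ultrafilter ι) (b : ι → Fin m → ℂ) (g : ι → ℂ → C.X)
    (g₀ : ℂ → C.X) : Prop where
  eh : ∀ ζ, EH C 𝒰 b g ζ
  cc : ∀ ζ, CC C 𝒰 g ζ (g₀ ζ)
  sm : ∀ ζ, ∀ᶠ x in (𝒰 : Filter ι) ×ˢ 𝓝 ζ, Sm C (g x.1 x.2)
  nc : ∃ ζ, g₀ ζ ≠ g₀ 0

theorem Bub.hol (hC : C.IsStable) (hb : Tendsto b 𝒰 (𝓝 b₀)) (h : Bub C 𝒰 b g g₀) (ζ : ℂ) :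
    HolF C b₀ g₀ ζ := holF_lim hC hb (h.eh ζ) (Eventually.of_forall h.cc)

theorem Bub.not_ev (hC : C.IsStable) (hb : Tendsto b 𝒰 (𝓝 b₀)) (h : Bub C 𝒰 b g g₀) (ζ : ℂ) :
    ¬ ∀ᶠ z in 𝓝 ζ, g₀ z = g₀ ζ := fun h1 => by
  have h2 := const_of_ev hC isPreconnected_univ (fun z _ => h.hol hC hb z) (mem_univ ζ) h1
  obtain ⟨z, hz⟩ := h.nc
  exact hz ((h2 z (mem_univ _)).trans (h2 0 (mem_univ _)).symm)

theorem Bub.sm0 (hC : C.IsStable) (hb : Tendsto b 𝒰 (𝓝 b₀)) (h : Bub C 𝒰 b g g₀) (ζ : ℂ) :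
    Sm C (g₀ ζ) := by
  by_contra hs
  exact h.not_ev hC hb ζ (hur_node hC hb (h.eh ζ) (Eventually.of_forall h.cc) hs (h.sm ζ))

theorem Bub.hit (hC : C.IsStable) (hb : Tendsto b 𝒰 (𝓝 b₀)) (h : Bub C 𝒰 b g g₀) {ζ : ℂ}
    {σ : ι → C.X} (hσ : Tendsto σ 𝒰 (𝓝 (g₀ ζ))) (hσb : ∀ᶠ j in (𝒰 : Filter ι), C.π (σ j) = b j)
    {δ : ℝ} (hδ : 0 < δ) : ∀ᶠ j in (𝒰 : Filter ι), ∃ w ∈ ball ζ δ, g j w = σ j := by
  by_contra h1
  refine h.not_ev hC hb ζ (hur_sm hC hb (h.eh ζ) (Eventually.of_forall h.cc) (h.sm0 hC hb ζ) hσ hσb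
    (ev_of_ball (P := fun j w => g j w ≠ σ j) (mem_ball_self hδ) ?_))
  exact (Ultrafilter.eventually_not.2 h1).mono fun j hj w hw e => hj ⟨w, hw, e⟩

theorem Bub.hit_pt (hC : C.IsStable) (hb : Tendsto b 𝒰 (𝓝 b₀)) (h : Bub C 𝒰 b g g₀) {ζ ζ' : ℂ}
    (e : g₀ ζ = g₀ ζ') {δ : ℝ} (hδ : 0 < δ) :
    ∀ᶠ j in (𝒰 : Filter ι), ∃ w ∈ ball ζ δ, g j w = g j ζ' :=
  h.hit hC hb (e ▸ (h.cc ζ').pt) ((h.eh ζ').pt.mono fun _ hj => hj.mem) hδ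

theorem Bub.hit_mark (hC : C.IsStable) (hb₀ : b₀ ∈ C.B) (hb : Tendsto b 𝒰 (𝓝 b₀))
    (h : Bub C 𝒰 b g g₀) {ζ : ℂ} {i : L} (e : g₀ ζ = C.s i b₀) :
    ∀ᶠ j in (𝒰 : Filter ι), ∃ w ∈ ball ζ 1, g j w = C.s i (b j) :=
  h.hit hC hb (σ := fun j => C.s i (b j))
    (e ▸ ((hC.2.2.2.2.2 b₀ hb₀).2.1 i).2.1.tendsto.comp hb)
    ((hb.eventually (hC.1.mem_nhds hb₀)).mono fun _ hj => ((hC.2.2.2.2.2 _ hj).2.1 i).1) one_pos

/-- **Normality** of injective discs in the smooth part with at most one marked point. -/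
theorem nrm_of_good (hC : C.IsStable) (hb₀ : b₀ ∈ C.B) (hb : Tendsto b 𝒰 (𝓝 b₀))
    (hh : EH C 𝒰 b g z₀) {r : ℝ} (hr : 0 < r)
    (hg : ∀ᶠ j in (𝒰 : Filter ι), (∀ w ∈ ball z₀ r, Sm C (g j w)) ∧ InjOn (g j) (ball z₀ r) ∧
      ∀ i i', ∀ w ∈ ball z₀ r, ∀ w' ∈ ball z₀ r, g j w = C.s i (b j) → g j w' = C.s i' (b j) →
        i = i') : Nrm C 𝒰 g z₀ := by
  obtain ⟨j₀, -⟩ := hg.exists
  have : Nonempty C.X := ⟨g j₀ 0⟩
  by_contra hn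
  obtain ⟨w, ρ, h1, h2, h3, h4, h5⟩ := zalcman hC hb₀ hb hh hn
  have h6 : ∀ ζ, ∀ᶠ x in (𝒰 : Filter ι) ×ˢ 𝓝 ζ, w x.1 + ρ x.1 * x.2 ∈ ball z₀ r := fun ζ =>
    (tendsto_aff h1 h2 ζ).eventually (ball_mem_nhds z₀ hr)
  have h7 : ∀ ζ : ℂ, ∀ᶠ j in (𝒰 : Filter ι), ∀ x ∈ closedBall ζ 1, w j + ρ j * x ∈ ball z₀ r :=
    fun ζ => ev_compact (isCompact_closedBall ζ 1) (P := fun j x => w j + ρ j * x ∈ ball z₀ r)
      fun z _ => h6 z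
  set k := lm C 𝒰 fun j ζ => g j (w j + ρ j * ζ) with hk
  have hB : Bub C 𝒰 b (fun j ζ => g j (w j + ρ j * ζ)) k :=
    ⟨fun ζ => hh.resc (σ := fun j ζ => w j + ρ j * ζ) (tendsto_aff h1 h2 ζ) fun j z => by fun_prop,
      fun ζ => ((h4 ζ).cc hC).self_of_nhds,
      fun ζ => ((h6 ζ).and (tendsto_fst.eventually hg)).mono fun x hx => hx.2.1 _ hx.1, h5⟩
  have hinj : ∀ ζ ζ', k ζ = k ζ' → ζ = ζ' := by
    intro ζ ζ' e
    refine eq_of_forall_dist_le fun δ hδ => ?_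
    obtain ⟨j, ⟨x, h8, h9⟩, h10, h11, h12, h13⟩ := ((hB.hit_pt hC hb e (lt_min hδ one_pos)).and
      ((h7 ζ).and ((h7 ζ').and (h3.and hg)))).exists
    have h14 := h13.2.1 (h10 x (ball_subset_closedBall (ball_subset_ball (min_le_right _ _) h8)))
      (h11 ζ' (mem_closedBall_self zero_le_one)) h9
    have h15 : (ρ j : ℂ) ≠ 0 := by exact_mod_cast h12.ne'
    rw [← mul_left_cancel₀ h15 (add_left_cancel h14), dist_comm]
    exact (lt_of_lt_of_le h8 (min_le_left _ _)).le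
  have hmk : ∀ ζ ζ' i i', k ζ = C.s i b₀ → k ζ' = C.s i' b₀ → i = i' := by
    intro ζ ζ' i i' e e'
    obtain ⟨j, ⟨x, h8, h9⟩, ⟨x', h10, h11⟩, h12, h13, h14⟩ := ((hB.hit_mark hC hb₀ hb e).and
      ((hB.hit_mark hC hb₀ hb e').and ((h7 ζ).and ((h7 ζ').and hg)))).exists
    exact h14.2.2 i i' _ (h12 x (ball_subset_closedBall h8)) _
      (h13 x' (ball_subset_closedBall h10)) h9 h11
  obtain ⟨z₁, hz₁⟩ : ∃ z₁, ∀ x ≠ 0, ∀ i, k (z₁ + x) ≠ C.s i b₀ := by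
    by_cases h8 : ∃ ζ i, k ζ = C.s i b₀
    · obtain ⟨ζ, i, h8⟩ := h8
      refine ⟨ζ, fun x hx i' e => hx ?_⟩
      obtain rfl := hmk _ _ _ _ h8 e
      simpa using hinj _ _ (e.trans h8.symm)
    · exact ⟨0, fun x _ i e => h8 ⟨_, i, e⟩⟩
  exact Pun.false (a := fun x => k (z₁ + x)) hC hb₀
    ⟨fun x _ => HolF.comp (k := fun x => z₁ + x) (hB.hol hC hb _) (by fun_prop),
      fun x _ => hB.sm0 hC hb _, fun x _ x' _ e => add_left_cancel (hinj _ _ e)⟩ hz₁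

theorem exp_inj_ball (ζ : ℂ) : InjOn Complex.exp (ball ζ 1) := by
  intro x hx y hy e
  obtain ⟨n, hn⟩ := Complex.exp_eq_exp_iff_exists_int.1 e
  have h1 : dist x y < 2 := by
    have := dist_triangle_right x y ζ
    rw [mem_ball] at hx hy
    linarith
  rw [hn, dist_self_add_left] at h1
  by_cases h2 : n = 0
  · simpa [h2] using hn
  · have h3 : (1 : ℝ) ≤ |(n : ℝ)| := by exact_mod_cast Int.one_le_abs h2
    simp only [norm_mul, Complex.norm_intCast, Complex.norm_ofNat, Complex.norm_real,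
      Complex.norm_I, mul_one, Real.norm_of_nonneg Real.pi_pos.le] at h1
    nlinarith [Real.pi_gt_three]

/-- Long annuli in the smooth part without marked points are contracted. -/
theorem exp_const (hC : C.IsStable) (hb₀ : b₀ ∈ C.B) (hb : Tendsto b 𝒰 (𝓝 b₀))
    (hg : ∀ R, ∀ᶠ j in (𝒰 : Filter ι), ∀ ζ ∈ ball (0 : ℂ) R, HolF C (b j) (g j) ζ ∧ Sm C (g j ζ) ∧
      (∀ i, g j ζ ≠ C.s i (b j)) ∧
      ∀ ζ' ∈ ball (0 : ℂ) R, g j ζ = g j ζ' ↔ Complex.exp ζ = Complex.exp ζ') :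
    ∃ q, ∀ ζ, CC C 𝒰 g ζ q := by
  obtain ⟨j₀, -⟩ := (hg 0).exists
  have : Nonempty C.X := ⟨g j₀ 0⟩
  have hs : ∀ ζ : ℂ, ∀ R, ‖ζ‖ + 1 ≤ R → ball ζ 1 ⊆ ball 0 R := fun ζ R h =>
    ball_subset_ball' (by rw [dist_zero_right]; linarith)
  have hE : ∀ ζ, EH C 𝒰 b g ζ := fun ζ =>
    ev_of_ball (P := fun j w => HolF C (b j) (g j) w) (mem_ball_self one_pos)
      ((hg _).mono fun j hj w hw => (hj w (hs ζ _ le_rfl hw)).1)
  have hN : ∀ ζ, Nrm C 𝒰 g ζ := fun ζ => nrm_of_good hC hb₀ hb (hE ζ) one_pos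
    ((hg _).mono fun j hj => ⟨fun w hw => (hj w (hs ζ _ le_rfl hw)).2.1,
      fun w hw w' hw' e => exp_inj_ball ζ hw hw'
        (((hj w (hs ζ _ le_rfl hw)).2.2.2 w' (hs ζ _ le_rfl hw')).1 e),
      fun i _ w hw _ _ e _ => absurd e ((hj w (hs ζ _ le_rfl hw)).2.2.1 i)⟩)
  set k := lm C 𝒰 g with hk
  have hc : ∀ ζ, CC C 𝒰 g ζ (k ζ) := fun ζ => ((hN ζ).cc hC).self_of_nhds
  by_cases h0 : ∃ ζ, k ζ ≠ k 0
  swap
  · push Not at h0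
    exact ⟨k 0, fun ζ => h0 ζ ▸ hc ζ⟩
  exfalso
  have hB : Bub C 𝒰 b g k := ⟨hE, hc, fun ζ =>
    ev_of_ball (P := fun j w => Sm C (g j w)) (mem_ball_self one_pos)
      ((hg _).mono fun j hj w hw => (hj w (hs ζ _ le_rfl hw)).2.1), h0⟩
  have hm1 : ∀ ζ ζ' : ℂ, ball ζ 1 ⊆ ball 0 (‖ζ‖ + ‖ζ'‖ + 1) := fun ζ ζ' =>
    hs ζ _ (by linarith [norm_nonneg ζ'])
  have hm2 : ∀ ζ ζ' : ℂ, ζ' ∈ ball 0 (‖ζ‖ + ‖ζ'‖ + 1) := fun ζ ζ' =>
    mem_ball_zero_iff.2 (by linarith [norm_nonneg ζ])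
  have h1 : ∀ ζ ζ', Complex.exp ζ = Complex.exp ζ' → k ζ = k ζ' := fun ζ ζ' e => by
    have := hC.2.1
    exact tendsto_nhds_unique (hc ζ).pt ((hc ζ').pt.congr' ((hg _).mono fun j hj =>
      (((hj ζ (hm1 ζ ζ' (mem_ball_self one_pos))).2.2.2 ζ' (hm2 ζ ζ')).2 e).symm))
  have h2 : ∀ ζ ζ', k ζ = k ζ' → Complex.exp ζ = Complex.exp ζ' := fun ζ ζ' e => by
    have h3 : ζ ∈ closure {x | Complex.exp x = Complex.exp ζ'} := by
      refine Metric.mem_closure_iff.2 fun δ hδ => ?_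
      obtain ⟨j, ⟨x, h3, h4⟩, h5⟩ := ((hB.hit_pt hC hb e (lt_min hδ one_pos)).and (hg _)).exists
      exact ⟨x, ((h5 x (hm1 ζ ζ' (ball_subset_ball (min_le_right _ _) h3))).2.2.2 ζ'
        (hm2 ζ ζ')).1 h4, by rw [dist_comm]; exact lt_of_lt_of_le h3 (min_le_left _ _)⟩
    exact (isClosed_eq Complex.continuous_exp continuous_const).closure_subset h3
  refine Pun.false (a := fun x => k (Complex.log x)) hC hb₀
    ⟨fun x hx => ?_, fun x _ => hB.sm0 hC hb _, fun x hx x' hx' e => ?_⟩ fun x _ i e => ?_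
  · have h3 : AnalyticAt ℂ (fun z => Complex.log x + Complex.log (z / x)) x :=
      analyticAt_const.add ((analyticAt_id.div analyticAt_const hx).clog
        (by simp [div_self hx]))
    refine (HolF.comp (k := fun z => Complex.log x + Complex.log (z / x)) (hB.hol hC hb _)
      h3).congr ?_
    filter_upwards [isOpen_ne.mem_nhds hx] with z hz
    refine h1 _ _ ?_
    rw [Complex.exp_add, Complex.exp_log hx, Complex.exp_log (div_ne_zero hz hx),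
      Complex.exp_log hz, mul_div_cancel₀ _ hx]
  · have := h2 _ _ e
    rwa [Complex.exp_log hx, Complex.exp_log hx'] at this
  · obtain ⟨j, ⟨y, h3, h4⟩, h5⟩ := ((hB.hit_mark hC hb₀ hb e).and (hg _)).exists
    exact (h5 y (hs _ _ le_rfl h3)).2.2.1 i h4

end Vale.Agent.P273SD

end
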