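import Vale.Agent.P273SD.Nor

/-!
Limits of isomorphisms of fibres at smooth points.
-/

set_option linter.unusedSectionVars false
set_option linter.unusedVariables false

noncomputable section

namespace Vale.Agent.P273SD

open Set Filter Topology Metric Vale.Agent.P273.H183 Vale.Agent.P273.H948

variable {L : Type} {m m' : ℕ} {ι : Type} {C : Fam L m} {C' : Fam L m'} {𝒰 : Ultrafilter ι}
  {b : ι → Fin m → ℂ} {b' : ι → Fin m' → ℂ} {b₀ : Fin m → ℂ} {b₀' : Fin m' → ℂ}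
  {φ : ι → C.X → C'.X} {ψ : ι → C'.X → C.X}

/-- Isomorphisms of fibres over convergent points, with their inverses. -/
structure Sit (C : Fam L m) (C' : Fam L m') (𝒰 : Ultrafilter ι) (b : ι → Fin m → ℂ)
    (b' : ι → Fin m' → ℂ) (b₀ : Fin m → ℂ) (b₀' : Fin m' → ℂ) (φ : ι → C.X → C'.X)
    (ψ : ι → C'.X → C.X) : Prop where
  st : C.IsStable
  st' : C'.IsStable
  mem : b₀ ∈ C.B
  mem' : b₀' ∈ C'.B
  hb : Tendsto b 𝒰 (𝓝 b₀)
  hb' : Tendsto b' 𝒰 (𝓝 b₀')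
  iso : ∀ᶠ j in (𝒰 : Filter ι), b j ∈ C.B ∧ b' j ∈ C'.B ∧ FIso C (b j) C' (b' j) (φ j) ∧
    FIso C' (b' j) C (b j) (ψ j) ∧ InvOn (ψ j) (φ j) (C.fib (b j)) (C'.fib (b' j))

theorem Sit.symm (h : Sit C C' 𝒰 b b' b₀ b₀' φ ψ) : Sit C' C 𝒰 b' b b₀' b₀ ψ φ :=
  ⟨h.st', h.st, h.mem', h.mem, h.hb', h.hb,
    h.iso.mono fun _ hj => ⟨hj.2.1, hj.1, hj.2.2.2.1, hj.2.2.1, hj.2.2.2.2.symm⟩⟩

theorem ev_mark [Finite L] (hC : C.IsStable) (hb₀ : b₀ ∈ C.B) (p : C.X) :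
    ∃ O ∈ 𝓝 p, ∀ᶠ c in 𝓝 b₀, ∀ i, C.s i c ∈ O → C.s i b₀ = p := by
  have := hC.2.1
  have h1 : ∀ᶠ y : C.X × (Fin m → ℂ) in 𝓝 (p, b₀), ∀ i, C.s i y.2 = y.1 → C.s i b₀ = p := by
    refine eventually_all.2 fun i => ?_
    by_cases e : C.s i b₀ = p
    · exact Eventually.of_forall fun _ _ => e
    · exact ((ContinuousAt.ne_iff_eventually_ne (x := (p, b₀)) (f := fun y => C.s i y.2)
        (g := fun y => y.1) (ContinuousAt.comp (g := C.s i) ((hC.2.2.2.2.2 b₀ hb₀).2.1 i).2.1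
          continuousAt_snd) continuousAt_fst).1 e).mono fun y hy e' => absurd e' hy
  rw [nhds_prod_eq] at h1
  obtain ⟨pa, ha, pb, hb, h2⟩ := eventually_prod_iff.1 h1
  exact ⟨_, ha, hb.mono fun c hc i hi => h2 hi hc i rfl⟩

section Chart

variable [Nonempty C.X] {U : Set C.X} {u v : C.X → ℂ} {t : (Fin m → ℂ) → ℂ} {p : C.X}

theorem ev_disc {l : Filter ι} (h : Mod C U u v t) (hp : p ∈ U) (h0 : u p ≠ 0)
    (hb : Tendsto b l (𝓝 (C.π p))) {O : Set C.X} (hO : O ∈ 𝓝 p) :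
    ∀ᶠ x in l ×ˢ 𝓝 (u p), HolF C (b x.1) (Pc C U u v t (b x.1)) x.2 ∧
      Pc C U u v t (b x.1) x.2 ∈ O ∧ u (Pc C U u v t (b x.1) x.2) = x.2 ∧
      Sm C (Pc C U u v t (b x.1) x.2) := by
  have h1 : Tendsto (fun x : ι × ℂ => (b x.1, x.2)) (l ×ˢ 𝓝 (u p)) (𝓝 (C.π p, u p)) :=
    (hb.comp tendsto_fst).prodMk_nhds tendsto_snd
  filter_upwards [h1.eventually (ev_Pc h hp h0), ((tendsto_Pc h hp h0).comp h1).eventually hO,
    tendsto_snd.eventually (isOpen_ne.mem_nhds h0)] with x ⟨h2, h3, h4⟩ h5 h6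
  have h7 : u (Pc C U u v t (b x.1) x.2) ≠ 0 := by rwa [h4]
  have h8 := holF_br h h2 (absurd · h7)
  rw [h3, h4] at h8
  exact ⟨h8, h5, h4, U, u, v, t, h2, h, h7⟩

theorem Sit.eh (S : Sit C C' 𝒰 b b' b₀ b₀' φ ψ) (h : Mod C U u v t) (hp : p ∈ U) (h0 : u p ≠ 0)
    (hπ : C.π p = b₀) : ∀ᶠ x in (𝒰 : Filter ι) ×ˢ 𝓝 (u p),
      HolF C' (b' x.1) (fun w => φ x.1 (Pc C U u v t (b x.1) w)) x.2 ∧
        Sm C' (φ x.1 (Pc C U u v t (b x.1) x.2)) := by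
  filter_upwards [ev_disc h hp h0 (hπ ▸ S.hb) univ_mem, tendsto_fst.eventually S.iso] with x h1 h2
  exact ⟨h2.2.2.1.holF h1.1, h2.2.2.1.sm S.st S.st' h2.1 h1.1.mem h1.2.2.2⟩

theorem Sit.nrm [Finite L] (S : Sit C C' 𝒰 b b' b₀ b₀' φ ψ) (h : Mod C U u v t) (hp : p ∈ U)
    (h0 : u p ≠ 0) (hπ : C.π p = b₀) :
    Nrm C' 𝒰 (fun j w => φ j (Pc C U u v t (b j) w)) (u p) := by
  obtain ⟨O, hO, h1⟩ := ev_mark S.st S.mem p
  obtain ⟨r, hr, h2⟩ := ev_ball (P := fun j w => (HolF C (b j) (Pc C U u v t (b j)) w ∧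
      Pc C U u v t (b j) w ∈ O ∧ u (Pc C U u v t (b j) w) = w ∧ Sm C (Pc C U u v t (b j) w)))
    (ev_disc h hp h0 (hπ ▸ S.hb) hO)
  refine nrm_of_good S.st' S.mem' S.hb' ((S.eh h hp h0 hπ).mono fun _ hx => hx.1) hr ?_
  filter_upwards [h2, S.iso, S.hb.eventually h1] with j h3 ⟨h4, _, h5, _⟩ h6
  have h7 : ∀ i, ∀ w ∈ ball (u p) r, φ j (Pc C U u v t (b j) w) = C'.s i (b' j) →
      C.s i b₀ = p := fun i w hw e => by
    rw [← h5.mark] at e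
    exact h6 i (h5.bij.injOn (h3 w hw).1.mem ((S.st.2.2.2.2.2 _ h4).2.1 i).1 e ▸ (h3 w hw).2.1)
  refine ⟨fun w hw => h5.sm S.st S.st' h4 (h3 w hw).1.mem (h3 w hw).2.2.2, fun w hw w' hw' e => ?_,
    fun i i' w hw w' hw' e e' => ((S.st.2.2.2.2.2 _ S.mem).2.1 i).2.2.2.1 i'
      ((h7 i w hw e).trans (h7 i' w' hw' e').symm)⟩
  rw [← (h3 w hw).2.2.1, h5.bij.injOn (h3 w hw).1.mem (h3 w' hw').1.mem e, (h3 w' hw').2.2.1]

theorem cf_of_cc {l : Filter ι} (h : Mod C U u v t) (hp : p ∈ U) (h0 : u p ≠ 0) {q : C'.X}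
    (hc : CC C' l (fun j w => φ j (Pc C U u v t (b j) w)) (u p) q) :
    Tendsto (fun x : ι × C.X => φ x.1 x.2) (near C l b p) (𝓝 q) := by
  have h1 : Tendsto (fun x : ι × C.X => (x.1, u x.2)) (near C l b p) (l ×ˢ 𝓝 (u p)) :=
    (tendsto_fst.prodMk ((h.cont_u hp).tendsto.comp tendsto_snd)).mono_left inf_le_left
  refine (Tendsto.comp hc h1).congr' ?_
  filter_upwards [mem_inf_of_left (tendsto_snd.eventually (ev_back h hp h0)),
    mem_inf_of_right (mem_principal_self _)] with x h2 h3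
  have h4 : C.π x.2 = b x.1 := h3
  simp only [Function.comp_apply, ← h4]
  rw [show Pc C U u v t (C.π x.2) (u x.2) = x.2 from h2]

theorem no_wind {F k : ℂ → ℂ} {z₀ x : ℂ} {r : ℝ} (hr : 0 < r) (hF : ContinuousOn F (ball z₀ r))
    (hF0 : ∀ w ∈ ball z₀ r, F w ≠ 0) (hk : ContinuousOn k (ball 0 7))
    (hk' : ∀ ζ ∈ ball (0 : ℂ) 7, k ζ ∈ ball z₀ r ∧ F (k ζ) = x * Complex.exp ζ)
    (hp : k (2 * Real.pi * Complex.I) = k 0) : False := by
  have : ContractibleSpace (ball z₀ r) := (convex_ball z₀ r).contractibleSpace (nonempty_ball.2 hr)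
  obtain ⟨G, hG, hG'⟩ := Complex.exists_continuousOn_eqOn_exp_comp (U := ball z₀ r)
    (inferInstanceAs (SimplyConnectedSpace (ball z₀ r))) isOpen_ball hF
    (fun ⟨w, hw, e⟩ => hF0 w hw e)
  have h1 : ∀ ζ ∈ ball (0 : ℂ) 7, Complex.exp (G (k ζ) - ζ) = x := fun ζ hζ => by
    have h2 : Complex.exp (G (k ζ)) = F (k ζ) := hG' (hk' ζ hζ).1
    rw [Complex.exp_sub, h2, (hk' ζ hζ).2, mul_div_cancel_right₀ _ (Complex.exp_ne_zero ζ)]
  have h2 := Complex.isCoveringMap_exp.constOn_of_comp (g := fun ζ => G (k ζ) - ζ)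
    (convex_ball (0 : ℂ) 7).isPreconnected
    ((hG.comp hk fun ζ hζ => (hk' ζ hζ).1).sub continuousOn_id)
    (fun a ha a' ha' => Subtype.ext ((h1 a ha).trans (h1 a' ha').symm))
    (a := 2 * Real.pi * Complex.I) (a' := 0) (by
      simp only [mem_ball_zero_iff, norm_mul, Complex.norm_ofNat, Complex.norm_real,
        Complex.norm_I, mul_one, Real.norm_of_nonneg Real.pi_pos.le]
      linarith [Real.pi_lt_d2]) (mem_ball_self (by norm_num))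
  simp only [hp, sub_zero, sub_eq_self] at h2
  exact Complex.two_pi_I_ne_zero h2

theorem Sit.sm_aux [Finite L] (S : Sit C C' 𝒰 b b' b₀ b₀' φ ψ) (h : Mod C U u v t) (hp : p ∈ U)
    (h0 : u p ≠ 0) (hπ : C.π p = b₀) {q : C'.X}
    (hc : CC C' 𝒰 (fun j w => φ j (Pc C U u v t (b j) w)) (u p) q) (hq : ¬ Sm C' q)
    {U' : Set C'.X} {u' v' : C'.X → ℂ} {t' : (Fin m' → ℂ) → ℂ} (h' : Mod C' U' u' v' t')
    (hU' : q ∈ U') (hx : ∀ᶠ j in (𝒰 : Filter ι), u' (φ j (Pc C U u v t (b j) (u p))) ≠ 0) :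
    False := by
  have : Nonempty C'.X := ⟨q⟩
  have := S.st.2.1
  obtain ⟨hu, hv⟩ := node_of_not_sm hq h' hU'
  have hE := S.eh h hp h0 hπ
  have hqb : C'.π q = b₀' := hc.fib S.st' S.hb' (hE.mono fun _ hx => hx.1)
  set n : ι → C'.X := fun j => φ j (Pc C U u v t (b j) (u p)) with hn
  have hnq : Tendsto n 𝒰 (𝓝 q) := hc.pt
  have hnU : ∀ᶠ j in (𝒰 : Filter ι), n j ∈ U' ∧ C'.π (n j) = b' j :=
    (hnq.eventually (h'.isOpen.mem_nhds hU')).and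
      (((tendsto_pt _ _).eventually hE).mono fun _ hj => hj.1.mem)
  set k : ι → ℂ → C'.X := fun j ζ => Pc C' U' u' v' t' (b' j) (u' (n j) * Complex.exp ζ) with hk
  have hγ : ∀ ζ, Tendsto (fun x : ι × ℂ => ((b' x.1, u' (n x.1) * Complex.exp x.2,
      t' (b' x.1) / (u' (n x.1) * Complex.exp x.2)) : Amb m')) ((𝒰 : Filter ι) ×ˢ 𝓝 ζ)
      (𝓝[Mset t'] (Emap C'.π u' v' q)) := by
    intro ζ
    have he : Tendsto (fun x : ι × ℂ => Complex.exp x.2) ((𝒰 : Filter ι) ×ˢ 𝓝 ζ)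
        (𝓝 (Complex.exp ζ)) := (Complex.continuous_exp.tendsto ζ).comp tendsto_snd
    refine tendsto_nhdsWithin_iff.2 ⟨?_, (tendsto_fst.eventually hx).mono fun x hx =>
      mul_div_cancel₀ _ (mul_ne_zero hx (Complex.exp_ne_zero _))⟩
    rw [Emap, hqb, hu, hv]
    refine (S.hb'.comp tendsto_fst).prodMk_nhds (Tendsto.prodMk_nhds ?_ ?_)
    · simpa [hu] using (((h'.cont_u hU').tendsto.comp hnq).comp tendsto_fst).mul he
    · have h1 := (((h'.cont_v hU').tendsto.comp hnq).comp tendsto_fst).div he (Complex.exp_ne_zero ζ)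
      rw [hv, zero_div] at h1
      refine h1.congr' ?_
      filter_upwards [tendsto_fst.eventually hx, tendsto_fst.eventually hnU] with x h2 h3
      simp only [Function.comp_apply, Pi.div_apply]
      rw [← h3.2, ← h'.eqn _ h3.1, mul_div_mul_left _ _ h2]
  obtain ⟨O', hO', hm⟩ := ev_mark S.st' S.mem' q
  have hkk : ∀ R, ∀ᶠ j in (𝒰 : Filter ι), ∀ ζ ∈ closedBall (0 : ℂ) R, k j ζ ∈ O' ∧ k j ζ ∈ U' ∧
      C'.π (k j ζ) = b' j ∧ u' (k j ζ) = u' (n j) * Complex.exp ζ := fun R =>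
    ev_compact (isCompact_closedBall 0 R) (P := fun j ζ => k j ζ ∈ O' ∧ k j ζ ∈ U' ∧
      C'.π (k j ζ) = b' j ∧ u' (k j ζ) = u' (n j) * Complex.exp ζ) fun ζ _ => by
      filter_upwards [((tendsto_Qc h' hU').comp (hγ ζ)).eventually hO',
        (hγ ζ).eventually (ev_Qc h' hU')] with x h1 h2
      exact ⟨h1, h2.1, congrArg Prod.fst h2.2, congrArg (fun w : Amb m' => w.2.1) h2.2⟩
  have hg : ∀ R, ∀ᶠ j in (𝒰 : Filter ι), ∀ ζ ∈ ball (0 : ℂ) R,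
      HolF C (b j) (fun ζ => ψ j (k j ζ)) ζ ∧ Sm C (ψ j (k j ζ)) ∧
      (∀ i, ψ j (k j ζ) ≠ C.s i (b j)) ∧ ∀ ζ' ∈ ball (0 : ℂ) R,
        ψ j (k j ζ) = ψ j (k j ζ') ↔ Complex.exp ζ = Complex.exp ζ' := by
    intro R
    filter_upwards [hkk R, hx, S.iso, S.hb'.eventually hm] with j h1 h2 ⟨h3, h4, h5, h6, h7⟩ h8 ζ hζ
    obtain ⟨h9, h10, h11, h12⟩ := h1 ζ (ball_subset_closedBall hζ)
    have h13 : u' (k j ζ) ≠ 0 := h12 ▸ mul_ne_zero h2 (Complex.exp_ne_zero _)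
    have h14 := holF_br h' h10 (absurd · h13)
    rw [h11, h12] at h14
    refine ⟨h6.holF (HolF.comp (k := fun ζ => u' (n j) * Complex.exp ζ) h14 (by fun_prop)),
      h6.sm S.st' S.st h4 h11 ⟨U', u', v', t', h10, h', h13⟩, fun i e => hq ?_,
      fun ζ' hζ' => ⟨fun e => ?_, fun e => by simp only [hk, e]⟩⟩
    · rw [← h8 i (by rwa [← h5.mark, ← e, h7.2 h11])]
      exact sm_mark S.st' S.mem' i
    · obtain ⟨-, -, h15, h16⟩ := h1 ζ' (ball_subset_closedBall hζ')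
      rw [h6.bij.injOn h11 h15 e, h16] at h12
      exact (mul_left_cancel₀ h2 h12).symm
  obtain ⟨p₁, hp₁⟩ := exp_const S.st S.mem S.hb hg
  have hd := ev_disc h hp h0 (hπ ▸ S.hb) univ_mem
  have h1 : p₁ = p := by
    refine tendsto_nhds_unique (hp₁ 0).pt (((tendsto_Pc h hp h0).comp
      ((hπ ▸ S.hb).prodMk_nhds tendsto_const_nhds)).congr' ?_)
    filter_upwards [hnU, hx, S.iso, (tendsto_pt _ _).eventually hd] with j h1 h2 h3 h4
    have h5 := Pc_self h' h1.1 (absurd · h2)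
    rw [h1.2] at h5
    simp only [hk, Complex.exp_zero, mul_one, Function.comp_apply, h5]
    exact (h3.2.2.2.2.1 h4.1.mem).symm
  subst h1
  obtain ⟨r, hr, h2⟩ := ev_ball (P := fun j w =>
      HolF C' (b' j) (fun w => φ j (Pc C U u v t (b j) w)) w ∧ φ j (Pc C U u v t (b j) w) ∈ U' ∧
        Sm C' (φ j (Pc C U u v t (b j) w)))
    ((hE.and (hc (h'.isOpen.mem_nhds hU'))).mono fun x hx => ⟨hx.1.1, hx.2, hx.1.2⟩)
  have h3 := ev_compact (isCompact_closedBall (0 : ℂ) 7) (P := fun j ζ =>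
      Pc C U u v t (C.π (ψ j (k j ζ))) (u (ψ j (k j ζ))) = ψ j (k j ζ) ∧
        u (ψ j (k j ζ)) ∈ ball (u p₁) r ∧ ψ j (k j ζ) ∈ U) fun ζ _ =>
    Tendsto.eventually (hp₁ ζ) ((ev_back h hp h0).and (Eventually.and
      ((h.cont_u hp) (ball_mem_nhds _ hr)) (h.isOpen.mem_nhds hp)))
  obtain ⟨j, h4, h5, h6, h7, h8, h9⟩ :=
    (h2.and (h3.and ((hg 7).and ((hkk 7).and (hx.and S.iso))))).exists
  refine no_wind (F := fun w => u' (φ j (Pc C U u v t (b j) w))) (k := fun ζ => u (ψ j (k j ζ)))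
    (x := u' (n j)) hr (diffOn_u h' fun w hw => ⟨(h4 w hw).1, (h4 w hw).2.1⟩).continuousOn
    ((dich S.st' h' (convex_ball _ r).isPreconnected h4).resolve_left
      fun e => h8 (e _ (mem_ball_self hr)))
    (diffOn_u h fun ζ hζ => ⟨(h6 ζ hζ).1, (h5 ζ (ball_subset_closedBall hζ)).2.2⟩).continuousOn
    (fun ζ hζ => ⟨(h5 ζ (ball_subset_closedBall hζ)).2.1, ?_⟩) ?_
  · have h10 := (h5 ζ (ball_subset_closedBall hζ)).1
    rw [show C.π (ψ j (k j ζ)) = b j from (h6 ζ hζ).1.mem] at h10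
    obtain ⟨-, -, h11, h12⟩ := h7 ζ (ball_subset_closedBall hζ)
    simp only [h10]
    rw [h9.2.2.2.2.2 h11, h12]
  · simp only [hk, Complex.exp_two_pi_mul_I, Complex.exp_zero]

end Chart

/-- The limit at a smooth point exists and is a smooth point. -/
theorem Sit.smooth [Finite L] (S : Sit C C' 𝒰 b b' b₀ b₀' φ ψ) {p : C.X} (hp : p ∈ C.fib b₀)
    (hs : Sm C p) : ∃ q, Sm C' q ∧
      Tendsto (fun x : ι × C.X => φ x.1 x.2) (near C 𝒰 b p) (𝓝 q) := by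
  have : Nonempty C.X := ⟨p⟩
  obtain ⟨U, u, v, t, hU, h, h0⟩ := hs
  obtain ⟨q, hq⟩ := (S.nrm h hU h0 hp).self_of_nhds
  refine ⟨q, ?_, cf_of_cc h hU h0 hq⟩
  by_contra h1
  obtain ⟨U', u', v', t', hU', h'⟩ := exists_mod S.st' q
  have h2 : ∀ᶠ j in (𝒰 : Filter ι), u' (φ j (Pc C U u v t (b j) (u p))) ≠ 0 ∨
      v' (φ j (Pc C U u v t (b j) (u p))) ≠ 0 := by
    filter_upwards [hq.pt.eventually (h'.isOpen.mem_nhds hU'),
      (tendsto_pt _ _).eventually (S.eh h hU h0 hp)] with j h2 h3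
    exact h3.2.all S.st' h' h2
  rcases Ultrafilter.eventually_or.1 h2 with h3 | h3
  · exact S.sm_aux h hU h0 hp hq h1 h' hU' h3
  · exact S.sm_aux h hU h0 hp hq h1 h'.swap hU' h3

end Vale.Agent.P273SD

end
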