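import Vale.Agent.P273SD.Pro1

/-!
Limits of isomorphisms of fibres at nodes; the isomorphisms form a proper family.
-/

set_option linter.unusedSectionVars false
set_option linter.unusedVariables false

noncomputable section

namespace Vale.Agent.P273SD

open Set Filter Topology Metric Vale.Agent.P273.H183 Vale.Agent.P273.H948

variable {L : Type} {m m' : ℕ} {ι : Type} {C : Fam L m} {C' : Fam L m'} {𝒰 : Ultrafilter ι}
  {b : ι → Fin m → ℂ} {b' : ι → Fin m' → ℂ} {b₀ : Fin m → ℂ} {b₀' : Fin m' → ℂ}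
  {φ : ι → C.X → C'.X} {ψ : ι → C'.X → C.X}

theorem tendsto_near {l : Filter ι} {p : C.X} {σ : ι → C.X} (h1 : Tendsto σ l (𝓝 p))
    (h2 : ∀ᶠ j in l, C.π (σ j) = b j) : Tendsto (fun j => (j, σ j)) l (near C l b p) :=
  tendsto_inf.2 ⟨tendsto_id.prodMk h1, tendsto_principal.2 h2⟩

theorem ev_near {l : Filter ι} {p : C.X} {P : ι → C.X → Prop} :
    (∀ᶠ x in near C l b p, P x.1 x.2) ↔
      ∃ O ∈ 𝓝 p, ∀ᶠ j in l, ∀ x ∈ O, C.π x = b j → P j x := by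
  rw [near, eventually_inf_principal]
  constructor
  · intro h
    obtain ⟨pa, ha, pb, hb, h1⟩ := eventually_prod_iff.1 h
    exact ⟨_, hb, ha.mono fun j hj x hx => h1 hj hx⟩
  · rintro ⟨O, h1, h2⟩
    exact (h2.prod_mk h1).mono fun x hx => hx.1 _ hx.2

theorem near_fst {l : Filter ι} {p : C.X} : Tendsto Prod.fst (near C l b p) l :=
  tendsto_fst.mono_left inf_le_left

theorem near_snd {l : Filter ι} {p : C.X} : Tendsto Prod.snd (near C l b p) (𝓝 p) :=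
  tendsto_snd.mono_left inf_le_left

theorem near_fib {l : Filter ι} {p : C.X} : ∀ᶠ x in near C l b p, C.π x.2 = b x.1 :=
  mem_inf_of_right (mem_principal_self _)

/-- The projection is open. -/
theorem exists_seq (hC : C.IsStable) {l : Filter ι} (hb : Tendsto b l (𝓝 b₀)) {p : C.X}
    (hp : p ∈ C.fib b₀) : ∃ σ : ι → C.X, Tendsto σ l (𝓝 p) ∧ ∀ᶠ j in l, C.π (σ j) = b j := by
  have : Nonempty C.X := ⟨p⟩
  obtain rfl : C.π p = b₀ := hp
  by_cases hs : Sm C p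
  · obtain ⟨U, u, v, t, hU, h, h0⟩ := hs
    have h1 := hb.prodMk_nhds (tendsto_const_nhds (x := u p))
    exact ⟨_, (tendsto_Pc h hU h0).comp h1, (h1.eventually (ev_Pc h hU h0)).mono
      fun _ hj => hj.2.1⟩
  · obtain ⟨U, u, v, t, hU, h⟩ := exists_mod hC p
    obtain ⟨hu, hv⟩ := node_of_not_sm hs h hU
    have h1 : ∀ c : ℂ, ∃ s : ℂ, s * s = c := fun c => by
      obtain ⟨s, hs⟩ := IsAlgClosed.exists_eq_mul_self c
      exact ⟨s, hs.symm⟩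
    choose s hs' using h1
    have h2 : Tendsto (fun j => t (b j)) l (𝓝 0) := by
      have := (h.an p hU).continuousAt.tendsto.comp hb
      rwa [← h.eqn p hU, hu, zero_mul] at this
    have h3 : Tendsto (fun j => s (t (b j))) l (𝓝 0) := by
      refine tendsto_zero_iff_norm_tendsto_zero.2 ?_
      have := (tendsto_zero_iff_norm_tendsto_zero.1 h2).sqrt
      rw [Real.sqrt_zero] at this
      refine this.congr fun j => ?_
      rw [← hs' (t (b j)), norm_mul, Real.sqrt_mul_self (norm_nonneg _), hs']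
    have h4 : Tendsto (fun j => ((b j, s (t (b j)), s (t (b j))) : Amb m)) l
        (𝓝[Mset t] (Emap C.π u v p)) := by
      refine tendsto_nhdsWithin_iff.2 ⟨?_, Eventually.of_forall fun j => hs' _⟩
      rw [Emap, hu, hv]
      exact hb.prodMk_nhds (h3.prodMk_nhds h3)
    exact ⟨_, (tendsto_Qc h hU).comp h4, (h4.eventually (ev_Qc h hU)).mono
      fun _ hj => congrArg Prod.fst hj.2⟩

theorem near_neBot (hC : C.IsStable) {l : Filter ι} [l.NeBot] (hb : Tendsto b l (𝓝 b₀)) {p : C.X}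
    (hp : p ∈ C.fib b₀) : (near C l b p).NeBot := by
  obtain ⟨σ, h1, h2⟩ := exists_seq hC hb hp
  exact (tendsto_near h1 h2).neBot

theorem neck_conn (τ : ℂ) {ε : ℝ} (hε : 0 < ε) :
    IsPreconnected {w : ℂ × ℂ | w.1 * w.2 = τ ∧ ‖w.1‖ < ε ∧ ‖w.2‖ < ε} := by
  by_cases h0 : τ = 0
  · have h1 : {w : ℂ × ℂ | w.1 * w.2 = τ ∧ ‖w.1‖ < ε ∧ ‖w.2‖ < ε} =
        (fun x : ℂ => (x, (0 : ℂ))) '' ball 0 ε ∪ (fun x : ℂ => ((0 : ℂ), x)) '' ball 0 ε := by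
      ext ⟨x, y⟩
      constructor
      · rintro ⟨h1, h2, h3⟩
        rcases mul_eq_zero.1 (h1.trans h0) with e | e
        · exact Or.inr ⟨y, mem_ball_zero_iff.2 h3, Prod.ext (Eq.symm e) rfl⟩
        · exact Or.inl ⟨x, mem_ball_zero_iff.2 h2, Prod.ext rfl (Eq.symm e)⟩
      · rintro (⟨z, hz, e⟩ | ⟨z, hz, e⟩) <;> rw [← e]
        · exact ⟨by simp [h0], mem_ball_zero_iff.1 hz, by simpa using hε⟩
        · exact ⟨by simp [h0], by simpa using hε, mem_ball_zero_iff.1 hz⟩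
    rw [h1]
    exact IsPreconnected.union (0, 0) ⟨0, mem_ball_self hε, rfl⟩ ⟨0, mem_ball_self hε, rfl⟩
      ((convex_ball _ _).isPreconnected.image _ (by fun_prop))
      ((convex_ball _ _).isPreconnected.image _ (by fun_prop))
  · have h1 : {w : ℂ × ℂ | w.1 * w.2 = τ ∧ ‖w.1‖ < ε ∧ ‖w.2‖ < ε} =
        (fun ζ : ℂ => (Complex.exp ζ, τ * Complex.exp (-ζ))) ''
          (Complex.re ⁻¹' {s | Real.exp s < ε ∧ ‖τ‖ * Real.exp (-s) < ε}) := by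
      ext ⟨x, y⟩
      constructor
      · rintro ⟨h1, h2, h3⟩
        have hx : x ≠ 0 := left_ne_zero_of_mul (h1 ▸ h0)
        have h4 : τ * Complex.exp (-Complex.log x) = y := by
          rw [Complex.exp_neg, Complex.exp_log hx, ← h1]
          field_simp
        refine ⟨Complex.log x, ⟨?_, ?_⟩, Prod.ext (Complex.exp_log hx) h4⟩
        · rwa [← Complex.norm_exp, Complex.exp_log hx]
        · rwa [← Complex.neg_re, ← Complex.norm_exp, ← norm_mul, h4]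
      · rintro ⟨z, hz, e⟩
        rw [← e]
        refine ⟨?_, by simpa [Complex.norm_exp] using hz.1, by simpa [Complex.norm_exp] using hz.2⟩
        simp only
        rw [mul_left_comm, ← Complex.exp_add, add_neg_cancel, Complex.exp_zero, mul_one]
    rw [h1]
    have h2 : Convex ℝ {s | Real.exp s < ε ∧ ‖τ‖ * Real.exp (-s) < ε} :=
      convex_iff_ordConnected.2 ⟨fun a ha c hc s hs =>
        ⟨(Real.exp_le_exp.2 hs.2).trans_lt hc.1, (mul_le_mul_of_nonneg_left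
          (Real.exp_le_exp.2 (neg_le_neg hs.1)) (norm_nonneg _)).trans_lt ha.2⟩⟩
    exact (h2.is_linear_preimage Complex.reLm.isLinear).isPreconnected.image _ (by fun_prop)

/-- Connected neighbourhoods of a node in the nearby fibres. -/
theorem exists_neck (hC : C.IsStable) {p : C.X} (hs : ¬ Sm C p) {O : Set C.X} (hO : O ∈ 𝓝 p) :
    ∃ O' ∈ 𝓝 p, O' ⊆ O ∧ ∀ᶠ c in 𝓝 (C.π p), IsPreconnected (O' ∩ C.fib c) := by
  have : Nonempty C.X := ⟨p⟩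
  obtain ⟨U, u, v, t, hU, h⟩ := exists_mod hC p
  obtain ⟨hu, hv⟩ := node_of_not_sm hs h hU
  obtain ⟨ε, hε, h1⟩ := Metric.mem_nhdsWithin_iff.1 (((tendsto_Qc h hU).eventually hO).and
    (ev_Qc h hU))
  refine ⟨U ∩ Emap C.π u v ⁻¹' ball (Emap C.π u v p) ε,
    inter_mem (h.isOpen.mem_nhds hU) ((h.cont hU) (ball_mem_nhds _ hε)), fun x hx => ?_, ?_⟩
  · rw [← Qc_E h hx.1]
    exact (h1 ⟨hx.2, h.eqn x hx.1⟩).1
  filter_upwards [ball_mem_nhds _ hε] with c hc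
  have h2 : ∀ w : ℂ × ℂ, w.1 * w.2 = t c ∧ ‖w.1‖ < ε ∧ ‖w.2‖ < ε →
      ((c, w) : Amb m) ∈ ball (Emap C.π u v p) ε ∩ Mset t := fun w hw => ⟨by
    rw [mem_ball, Emap, hu, hv, Prod.dist_eq, Prod.dist_eq, dist_zero_right, dist_zero_right]
    exact max_lt hc (max_lt hw.2.1 hw.2.2), hw.1⟩
  have h3 : U ∩ Emap C.π u v ⁻¹' ball (Emap C.π u v p) ε ∩ C.fib c =
      (fun w : ℂ × ℂ => Qc C U u v (c, w)) ''
        {w : ℂ × ℂ | w.1 * w.2 = t c ∧ ‖w.1‖ < ε ∧ ‖w.2‖ < ε} := by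
    ext x
    constructor
    · rintro ⟨⟨h3, h4⟩, h5⟩
      have h6 : C.π x = c := h5
      rw [mem_preimage, mem_ball, Emap, Emap, hu, hv, Prod.dist_eq, Prod.dist_eq, dist_zero_right,
        dist_zero_right, max_lt_iff, max_lt_iff] at h4
      exact ⟨(u x, v x), ⟨h6 ▸ h.eqn x h3, h4.2⟩, h6 ▸ Qc_E h h3⟩
    · rintro ⟨w, hw, rfl⟩
      obtain ⟨-, h3, h4⟩ := h1 (h2 w hw)
      exact ⟨⟨h3, by rw [mem_preimage, h4]; exact (h2 w hw).1⟩, congrArg Prod.fst h4⟩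
  rw [h3]
  refine (neck_conn _ hε).image _ fun w hw => ?_
  obtain ⟨-, h4, h5⟩ := h1 (h2 w hw)
  have h6 := tendsto_Qc h h4
  rw [h5] at h6
  exact h6.comp (tendsto_nhdsWithin_iff.2 ⟨(Continuous.tendsto (by fun_prop) w).mono_left
    nhdsWithin_le_nhds, eventually_mem_nhdsWithin.mono fun y hy => hy.1⟩)

theorem Sit.back (S : Sit C C' 𝒰 b b' b₀ b₀' φ ψ) {p p' : C.X} {q : C'.X} {F : Filter (ι × C.X)}
    [F.NeBot] (hF : F ≤ near C 𝒰 b p) (h1 : Tendsto (fun x : ι × C.X => φ x.1 x.2) F (𝓝 q))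
    (h2 : Tendsto (fun x : ι × C'.X => ψ x.1 x.2) (near C' 𝒰 b' q) (𝓝 p')) : p' = p := by
  have := S.st.2.1
  have h3 := (near_fst.eventually S.iso).and (near_fib (C := C) (l := 𝒰) (b := b) (p := p))
  have h4 : Tendsto (fun x : ι × C.X => (x.1, φ x.1 x.2)) F (near C' 𝒰 b' q) :=
    tendsto_inf.2 ⟨(near_fst.mono_left hF).prodMk h1, tendsto_principal.2
      ((h3.filter_mono hF).mono fun x hx => hx.1.2.2.1.bij.mapsTo hx.2)⟩
  exact tendsto_nhds_unique (h2.comp h4) ((near_snd.mono_left hF).congr'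
    ((h3.filter_mono hF).mono fun x hx => (hx.1.2.2.2.2.1 hx.2).symm))

theorem Sit.ulim (S : Sit C C' 𝒰 b b' b₀ b₀' φ ψ) {p : C.X} {𝒲 : Ultrafilter (ι × C.X)}
    (hF : (𝒲 : Filter (ι × C.X)) ≤ near C 𝒰 b p) :
    ∃ q ∈ C'.fib b₀', Tendsto (fun x : ι × C.X => φ x.1 x.2) 𝒲 (𝓝 q) := by
  obtain ⟨K, h1, h2, h3⟩ := local_compact_nhds (S.st'.1.mem_nhds S.mem')
  have h4 : Tendsto (fun x : ι × C.X => C'.π (φ x.1 x.2)) 𝒲 (𝓝 b₀') :=
    ((S.hb'.comp near_fst).mono_left hF).congr' ((((near_fst.eventually S.iso).and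
      near_fib).filter_mono hF).mono fun x hx => Eq.symm (hx.1.2.2.1.bij.mapsTo hx.2))
  obtain ⟨q, -, h5⟩ := (S.st'.2.2.2.1 K h2 h3).ultrafilter_le_nhds
    (𝒲.map fun x : ι × C.X => φ x.1 x.2) (le_principal_iff.2 (h4 h1))
  exact ⟨q, tendsto_nhds_unique (((cont_π S.st').tendsto q).comp h5) h4, h5⟩

theorem Sit.node [Finite L] (S : Sit C C' 𝒰 b b' b₀ b₀' φ ψ) {p : C.X} (hp : p ∈ C.fib b₀)
    (hs : ¬ Sm C p) : ∃ q, Tendsto (fun x : ι × C.X => φ x.1 x.2) (near C 𝒰 b p) (𝓝 q) := by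
  have := S.st'.2.1
  have hfin := finite_nodes S.st' S.mem'
  obtain ⟨V, hV, hd⟩ := hfin.t2_separation
  have key : ∀ 𝒲 : Ultrafilter (ι × C.X), (𝒲 : Filter (ι × C.X)) ≤ near C 𝒰 b p →
      ∃ q ∈ {q ∈ C'.fib b₀' | ¬ Sm C' q}, Tendsto (fun x : ι × C.X => φ x.1 x.2) 𝒲 (𝓝 q) := by
    intro 𝒲 h
    obtain ⟨q, h1, h2⟩ := S.ulim h
    refine ⟨q, ⟨h1, fun h3 => hs ?_⟩, h2⟩
    obtain ⟨p', h4, h5⟩ := S.symm.smooth h1 h3
    rwa [S.back h h2 h5] at h4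
  have h1 : ∀ᶠ x in near C 𝒰 b p, φ x.1 x.2 ∈ ⋃ q ∈ {q ∈ C'.fib b₀' | ¬ Sm C' q}, V q := by
    refine mem_iff_ultrafilter.2 fun 𝒲 h => ?_
    obtain ⟨q, h1, h2⟩ := key 𝒲 h
    exact mem_of_superset (h2 ((hV q).2.mem_nhds (hV q).1)) fun x hx => mem_biUnion h1 hx
  obtain ⟨O, hO, h2⟩ := (ev_near (P := fun j x =>
    φ j x ∈ ⋃ q ∈ {q ∈ C'.fib b₀' | ¬ Sm C' q}, V q)).1 h1
  obtain ⟨O', hO', h3, h4⟩ := exists_neck S.st hs hO
  obtain ⟨σ, h5, h6⟩ := exists_seq S.st S.hb hp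
  rw [show C.π p = b₀ from hp] at h4
  have h7 : ∀ᶠ j in (𝒰 : Filter ι), ∃ q ∈ {q ∈ C'.fib b₀' | ¬ Sm C' q},
      ∀ x ∈ O', C.π x = b j → φ j x ∈ V q := by
    filter_upwards [h2, S.hb.eventually h4, h5.eventually hO', h6, S.iso] with j h7 h8 h9 h10 h11
    obtain ⟨q, hq, h12⟩ := mem_iUnion₂.1 (h7 _ (h3 h9) h10)
    have h13 := IsPreconnected.subset_left_of_subset_union (s := φ j '' (O' ∩ C.fib (b j)))
      (hV q).2
      (isOpen_biUnion (s := {q' ∈ {q ∈ C'.fib b₀' | ¬ Sm C' q} | q' ≠ q}) fun q' _ => (hV q').2)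
      (disjoint_iUnion₂_right.2 fun q' hq' => hd hq hq'.1 (Ne.symm hq'.2)) (by
        rintro _ ⟨x, hx, rfl⟩
        obtain ⟨q', hq', h13⟩ := mem_iUnion₂.1 (h7 _ (h3 hx.1) hx.2)
        by_cases e : q' = q
        · exact Or.inl (e ▸ h13)
        · exact Or.inr (mem_iUnion₂.2 ⟨q', ⟨hq', e⟩, h13⟩))
      ⟨_, ⟨σ j, ⟨h9, h10⟩, rfl⟩, h12⟩ (h8.image _ (h11.2.2.1.cont.mono inter_subset_right))
    exact ⟨q, hq, fun x hx hx' => h13 ⟨x, ⟨hx, hx'⟩, rfl⟩⟩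
  obtain ⟨q, hq, h8⟩ := (Ultrafilter.eventually_exists_mem_iff hfin).1 h7
  have h9 := (ev_near (P := fun j x => φ j x ∈ V q)).2 ⟨O', hO', h8⟩
  refine ⟨q, (tendsto_iff_ultrafilter _ _ _).2 fun 𝒲 h => ?_⟩
  obtain ⟨q', h10, h11⟩ := key 𝒲 h
  by_cases e : q' = q
  · exact e ▸ h11
  · obtain ⟨x, h12, h13⟩ := ((h9.filter_mono h).and
      (h11.eventually ((hV q').2.mem_nhds (hV q').1))).exists
    exact absurd h12 (disjoint_left.1 (hd h10 hq e) h13)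

theorem Sit.lim [Finite L] (S : Sit C C' 𝒰 b b' b₀ b₀' φ ψ) : ∃ φ₀ : C.X → C'.X,
    ∀ p ∈ C.fib b₀, Tendsto (fun x : ι × C.X => φ x.1 x.2) (near C 𝒰 b p) (𝓝 (φ₀ p)) := by
  obtain ⟨q₀, -⟩ := (S.st'.2.2.2.2.2 _ S.mem').1.nonempty
  have : Nonempty C'.X := ⟨q₀⟩
  have h1 : ∀ p ∈ C.fib b₀, ∃ q,
      Tendsto (fun x : ι × C.X => φ x.1 x.2) (near C 𝒰 b p) (𝓝 q) := fun p hp => by
    by_cases hs : Sm C p
    · exact (S.smooth hp hs).imp fun _ h => h.2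
    · exact S.node hp hs
  choose! φ₀ h using h1
  exact ⟨φ₀, h⟩

theorem Sit.maps (S : Sit C C' 𝒰 b b' b₀ b₀' φ ψ) {p : C.X} (hp : p ∈ C.fib b₀) {q : C'.X}
    (h : Tendsto (fun x : ι × C.X => φ x.1 x.2) (near C 𝒰 b p) (𝓝 q)) : q ∈ C'.fib b₀' := by
  have := near_neBot S.st S.hb hp
  exact tendsto_nhds_unique (((cont_π S.st').tendsto q).comp h)
    ((S.hb'.comp near_fst).congr' (((near_fst.eventually S.iso).and near_fib).mono
      fun x hx => Eq.symm (hx.1.2.2.1.bij.mapsTo hx.2)))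

theorem Sit.fiso [Finite L] (S : Sit C C' 𝒰 b b' b₀ b₀' φ ψ) {φ₀ : C.X → C'.X}
    (h : ∀ p ∈ C.fib b₀,
      Tendsto (fun x : ι × C.X => φ x.1 x.2) (near C 𝒰 b p) (𝓝 (φ₀ p))) :
    FIso C b₀ C' b₀' φ₀ := by
  obtain ⟨ψ₀, h'⟩ := S.symm.lim
  have m1 : MapsTo φ₀ (C.fib b₀) (C'.fib b₀') := fun p hp => S.maps hp (h p hp)
  have m2 : MapsTo ψ₀ (C'.fib b₀') (C.fib b₀) := fun p hp => S.symm.maps hp (h' p hp)
  have hinv : InvOn ψ₀ φ₀ (C.fib b₀) (C'.fib b₀') := by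
    refine ⟨fun p hp => ?_, fun q hq => ?_⟩
    · have := near_neBot S.st S.hb hp
      exact S.back le_rfl (h p hp) (h' _ (m1 hp))
    · have := near_neBot S.st' S.hb' hq
      exact S.symm.back le_rfl (h' q hq) (h _ (m2 hq))
  have hcont : ContinuousOn φ₀ (C.fib b₀) := by
    intro p hp
    have := regular S.st'
    refine (closed_nhds_basis (φ₀ p)).tendsto_right_iff.2 fun N hN => ?_
    obtain ⟨O, hO, h1⟩ := (ev_near (P := fun j x => φ j x ∈ N)).1 (h p hp hN.1)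
    filter_upwards [mem_nhdsWithin_of_mem_nhds (eventually_mem_nhds_iff.2 hO),
      self_mem_nhdsWithin] with x h2 h3
    have := near_neBot S.st S.hb h3
    exact hN.2.mem_of_tendsto (h x h3) ((ev_near (P := fun j x => φ j x ∈ N)).2 ⟨O, h2, h1⟩)
  have hsm : ∀ p ∈ C.fib b₀, Sm C p → ∀ f, C'.hol f (φ₀ p) → FH C b₀ (fun q => f (φ₀ q)) p := by
    rintro p hp ⟨U, u, v, t, hU, hm, h0⟩ f hf
    have : Nonempty C.X := ⟨p⟩
    obtain rfl : C.π p = b₀ := hp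
    have h1 : HolF C' b₀' (fun z => φ₀ (Pc C U u v t (C.π p) z)) (u p) := by
      refine holF_lim (g := fun j w => φ j (Pc C U u v t (b j) w)) S.st' S.hb'
        ((S.eh hm hU h0 rfl).mono fun _ hx => hx.1) ?_
      filter_upwards [ev_br hm hU (absurd · h0), isOpen_ne.mem_nhds h0] with z ⟨h1, h2, h3, _⟩ h4
      have h5 : u (Pc C U u v t (C.π p) z) ≠ 0 := by rwa [h3]
      have h6 : Tendsto (fun x : ι × ℂ => (b x.1, x.2)) ((𝒰 : Filter ι) ×ˢ 𝓝 z)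
          (𝓝 (C.π (Pc C U u v t (C.π p) z), u (Pc C U u v t (C.π p) z))) := by
        rw [h2, h3]
        exact (S.hb.comp tendsto_fst).prodMk_nhds tendsto_snd
      exact (h _ h2).comp (tendsto_inf.2 ⟨tendsto_fst.prodMk ((tendsto_Pc hm h1 h5).comp h6),
        tendsto_principal.2 ((h6.eventually (ev_Pc hm h1 h5)).mono fun _ hx => hx.2.1)⟩)
    exact fh_smooth hm hU h0 (h1.an f (by rwa [Pc_self hm hU (absurd · h0)]))
  refine ⟨hinv.bijOn m1 m2, hcont, fun p hp f hf => ?_, fun i => ?_⟩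
  · refine fh_removable S.st hp ((hol_ev S.st' hf).1.tendsto.comp (hcont p hp)) ?_
    filter_upwards [(hcont p hp).eventually (hol_ev S.st' hf).2,
      mem_nhdsWithin_of_mem_nhds (ev_sm S.st p), self_mem_nhdsWithin] with x h1 h2 h3 h4
    exact hsm x h3 (h2 (Eq.trans h3 (Eq.symm hp)) h4) f h1
  · have := S.st'.2.1
    have h1 := (S.st.2.2.2.2.2 _ S.mem).2.1 i
    exact tendsto_nhds_unique ((h _ h1.1).comp (tendsto_near (σ := fun j => C.s i (b j))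
      (h1.2.1.tendsto.comp S.hb) (S.iso.mono fun j hj => ((S.st.2.2.2.2.2 _ hj.1).2.1 i).1)))
      ((((S.st'.2.2.2.2.2 _ S.mem').2.1 i).2.1.tendsto.comp S.hb').congr'
        (S.iso.mono fun j hj => (hj.2.2.1.mark i).symm))

/-- **Properness of the isomorphisms.** -/
theorem proper : Proper := by
  intro L _ m m' C C' hC hC' ι 𝒰 b b' φ b₀ hb₀ b₀' hb₀' hb hb' hφ
  have h1 : ∀ᶠ j in (𝒰 : Filter ι), ∃ ψ : C'.X → C.X, b j ∈ C.B ∧ b' j ∈ C'.B ∧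
      FIso C (b j) C' (b' j) (φ j) ∧ FIso C' (b' j) C (b j) ψ ∧
        InvOn ψ (φ j) (C.fib (b j)) (C'.fib (b' j)) := by
    filter_upwards [hφ, hb.eventually (hC.1.mem_nhds hb₀), hb'.eventually (hC'.1.mem_nhds hb₀')]
      with j h1 h2 h3
    obtain ⟨ψ, h4⟩ := h1.symm hC hC' h2 h3
    exact ⟨ψ, h2, h3, h1, h4⟩
  obtain ⟨p₀, -⟩ := (hC.2.2.2.2.2 _ hb₀).1.nonempty
  have : Nonempty (C'.X → C.X) := ⟨fun _ => p₀⟩
  obtain ⟨ψ, h2⟩ := h1.choice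
  have S : Sit C C' 𝒰 b b' b₀ b₀' φ ψ := ⟨hC, hC', hb₀, hb₀', hb, hb', h2⟩
  obtain ⟨φ₀, h3⟩ := S.lim
  exact ⟨φ₀, S.fiso h3, h3⟩

/-- The relation of being isomorphic is closed. -/
theorem proper_seq [Finite L] (hC : C.IsStable) (hC' : C'.IsStable) {l : Filter ι} [l.NeBot]
    (hb₀ : b₀ ∈ C.B) (hb₀' : b₀' ∈ C'.B) (hb : Tendsto b l (𝓝 b₀)) (hb' : Tendsto b' l (𝓝 b₀'))
    (h : ∀ᶠ j in l, ∃ φ, FIso C (b j) C' (b' j) φ) : ∃ φ₀, FIso C b₀ C' b₀' φ₀ := by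
  obtain ⟨q₀, -⟩ := (hC'.2.2.2.2.2 _ hb₀').1.nonempty
  have : Nonempty (C.X → C'.X) := ⟨fun _ => q₀⟩
  obtain ⟨φ, h1⟩ := h.choice
  have h2 := Ultrafilter.of_le l
  exact (proper L m m' C C' hC hC' ι (Ultrafilter.of l) b b' φ b₀ hb₀ b₀' hb₀' (hb.mono_left h2)
    (hb'.mono_left h2) (h2 h1)).imp fun _ h => h.1

end Vale.Agent.P273SD

end
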