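import Vale.Agent.P273SD.End

/-!
A fibre of a family of stable curves contains no punctured plane that avoids the nodes and the
marked points.
-/

set_option linter.unusedSectionVars false
set_option linter.unusedVariables false

noncomputable section

namespace Vale.Agent.P273SD

open Set Filter Topology Metric Vale.Agent.P273.H183 Vale.Agent.P273.H948

variable {L : Type} {m : ℕ} {ι : Type} {C : Fam L m} {b : Fin m → ℂ} {a : ℂ → C.X}

theorem hol_ev (hC : C.IsStable) {f : C.X → ℂ} {p : C.X} (hf : C.hol f p) :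
    ContinuousAt f p ∧ ∀ᶠ x in 𝓝 p, C.hol f x := by
  obtain ⟨U, u, v, t, hU, hm⟩ := exists_mod hC p
  obtain ⟨k, hk, ek⟩ := (hm.hol p hU f).1 hf
  refine ⟨(ContinuousAt.comp (g := k) hk.continuousAt (hm.cont hU)).congr ek.symm, ?_⟩
  filter_upwards [hm.isOpen.mem_nhds hU, (hm.cont hU).eventually hk.eventually_analyticAt,
    ek.eventually_nhds] with x h1 h2 h3
  exact (hm.hol x h1 f).2 ⟨k, h2, h3⟩

theorem Pun.deriv_ne (h : Pun C b a) {w : ℂ} (hw : w ≠ 0) {U : Set C.X} {u v : C.X → ℂ}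
    {t : (Fin m → ℂ) → ℂ} (hm : Mod C U u v t) (hU : a w ∈ U) (h0 : u (a w) ≠ 0) :
    deriv (fun z => u (a z)) w ≠ 0 := by
  obtain ⟨O, hO1, hO2, hO3⟩ := _root_.eventually_nhds_iff.1 (Eventually.and (isOpen_ne.mem_nhds hw)
    (Eventually.and ((h.hol w hw).cont (hm.isOpen.mem_nhds hU))
      (((hm.cont_u hU).tendsto.comp (h.hol w hw).cont) (isOpen_ne.mem_nhds h0))))
  refine P247.H558.VF.injOn_deriv_ne_zero hO2 (fun z hz =>
    ((h.hol z (hO1 z hz).1).an_u hm (hO1 z hz).2.1).differentiableAt.differentiableWithinAt)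
    (fun z hz z' hz' e => h.inj z (hO1 z hz).1 z' (hO1 z' hz').1 ?_) hO3
  exact eq_of_u hm (hO1 z hz).2.1 (hO1 z' hz').2.1
    (Eq.trans (h.hol z (hO1 z hz).1).mem (Eq.symm (h.hol z' (hO1 z' hz').1).mem)) e (hO1 z' hz').2.2

theorem Pun.fh (h : Pun C b a) {w : ℂ} (hw : w ≠ 0) {F : C.X → ℂ}
    (hF : AnalyticAt ℂ (fun z => F (a z)) w) : FH C b F (a w) := by
  have : Nonempty C.X := ⟨a w⟩
  obtain ⟨U, u, v, t, hU, hm, h0⟩ := h.sm w hw
  have hG := (h.hol w hw).an_u hm hU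
  have hd := h.deriv_ne hw hm hU h0
  have hs := hG.hasStrictDerivAt
  have hinv : AnalyticAt ℂ (hs.localInverse _ _ _ hd) (u (a w)) := hG.analyticAt_localInverse hd
  have hl : hs.localInverse _ _ _ hd (u (a w)) = w :=
    (hs.hasStrictFDerivAt_equiv hd).eventually_left_inverse.self_of_nhds
  have hr : ∀ᶠ y in 𝓝 (u (a w)), u (a (hs.localInverse _ _ _ hd y)) = y :=
    (hs.hasStrictFDerivAt_equiv hd).eventually_right_inverse
  set η := hs.localInverse _ _ _ hd with hη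
  refine ⟨fun q => F (a (η (u q))), hol_comp_u hm hU (ξ := fun y => F (a (η y)))
    (AnalyticAt.comp_of_eq (g := fun z => F (a z)) hF hinv hl), ?_⟩
  have h1 : Tendsto (fun q => η (u q)) (𝓝 (a w)) (𝓝 w) := by
    have := hinv.continuousAt.tendsto.comp (hm.cont_u hU)
    rwa [hl] at this
  filter_upwards [self_mem_nhdsWithin, mem_nhdsWithin_of_mem_nhds (hm.isOpen.mem_nhds hU),
    mem_nhdsWithin_of_mem_nhds ((hm.cont_u hU) (isOpen_ne.mem_nhds h0)),
    mem_nhdsWithin_of_mem_nhds ((hm.cont_u hU).eventually hr),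
    mem_nhdsWithin_of_mem_nhds (h1.eventually (h.hol w hw).fib),
    mem_nhdsWithin_of_mem_nhds (((h.hol w hw).cont.tendsto.comp h1) (hm.isOpen.mem_nhds hU))]
    with q h2 h3 h4 h5 h6 h7
  rw [show a (η (u q)) = q from eq_of_u hm h7 h3 (h6.trans (Eq.symm h2)) h5 h4]

theorem Pun.esc (hC : C.IsStable) (h : Pun C b a) {q₀ q₁ p : C.X} (h0 : Tendsto a (𝓝[≠] 0) (𝓝 q₀))
    (h1 : Tendsto (fun w => a w⁻¹) (𝓝[≠] 0) (𝓝 q₁)) (hp : ∀ w ≠ 0, a w ≠ p) {Q : ℂ → Prop}
    (h2 : q₀ = p → ∀ᶠ w in 𝓝[≠] 0, Q w) (h3 : q₁ = p → ∀ᶠ w in 𝓝[≠] 0, Q w⁻¹) :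
    ∀ᶠ x in 𝓝 p, ∀ w ≠ 0, a w = x → Q w := by
  have := hC.2.1
  have key : ∀ {k : ℂ → C.X} {q : C.X} {R : ℂ → Prop}, Tendsto k (𝓝[≠] 0) (𝓝 q) →
      (q = p → ∀ᶠ w in 𝓝[≠] 0, R w) →
      ∃ O ∈ 𝓝 p, ∃ ε > 0, ∀ w ≠ 0, ‖w‖ < ε → k w ∈ O → R w := by
    intro k q R h4 h5
    have h6 : ∃ O ∈ 𝓝 p, ∀ᶠ w in 𝓝[≠] 0, k w ∈ O → R w := by
      by_cases e : q = p
      · exact ⟨univ, univ_mem, (h5 e).mono fun w hw _ => hw⟩
      · obtain ⟨O₁, O₂, h7, h8, h9⟩ := t2_separation_nhds e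
        exact ⟨O₂, h8, (h4.eventually h7).mono fun w hw hw' =>
          absurd hw' (disjoint_left.1 h9 hw)⟩
    obtain ⟨O, h7, h8⟩ := h6
    obtain ⟨ε, hε, h9⟩ := Metric.eventually_nhds_iff_ball.1 (eventually_nhdsWithin_iff.1 h8)
    exact ⟨O, h7, ε, hε, fun w hw h10 => h9 w (mem_ball_zero_iff.2 h10) hw⟩
  obtain ⟨O₀, h4, ε₀, hε₀, h5⟩ := key h0 h2
  obtain ⟨O₁, h6, ε₁, hε₁, h7⟩ := key h1 h3
  have h8 : IsCompact (a '' (closedBall 0 ε₁⁻¹ \ ball 0 ε₀)) :=
    ((isCompact_closedBall _ _).diff isOpen_ball).image_of_continuousOn fun z hz =>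
      (h.hol z (by rintro rfl; exact hz.2 (mem_ball_self hε₀))).cont.continuousWithinAt
  have h9 : p ∉ a '' (closedBall 0 ε₁⁻¹ \ ball 0 ε₀) := by
    rintro ⟨z, hz, e⟩
    exact hp z (by rintro rfl; exact hz.2 (mem_ball_self hε₀)) e
  filter_upwards [h4, h6, h8.isClosed.isOpen_compl.mem_nhds h9] with x h10 h11 h12 w hw e
  subst e
  by_cases h13 : ‖w‖ < ε₀
  · exact h5 w hw h13 h10
  by_cases h14 : ‖w‖ ≤ ε₁⁻¹
  · exact absurd ⟨w, ⟨mem_closedBall_zero_iff.2 h14, by rwa [mem_ball_zero_iff]⟩, rfl⟩ h12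
  · have h15 := h7 w⁻¹ (inv_ne_zero hw) (by
      rw [norm_inv]
      exact inv_lt_of_inv_lt₀ hε₁ (not_le.1 h14)) (by rwa [inv_inv])
    rwa [inv_inv] at h15

theorem Pun.zd (hC : C.IsStable) (h : Pun C b a) {p : C.X} (h0 : Tendsto a (𝓝[≠] 0) (𝓝 p))
    {f : C.X → ℂ} (hf : C.hol f p) :
    Tendsto (fun w => w * deriv (fun z => f (a z)) w) (𝓝[≠] 0) (𝓝 0) := by
  classical
  obtain ⟨h1, h2⟩ := hol_ev hC hf
  have h3 : ∀ w ≠ (0 : ℂ), Function.update (fun z => f (a z)) 0 (f p) =ᶠ[𝓝 w] fun z => f (a z) :=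
    fun w hw => (isOpen_ne.eventually_mem hw).mono fun z hz => Function.update_of_ne hz _ _
  have h4 : AnalyticAt ℂ (Function.update (fun z => f (a z)) 0 (f p)) 0 := by
    refine Complex.analyticAt_of_differentiable_on_punctured_nhds_of_continuousAt ?_
      (continuousAt_update_same.2 (h1.tendsto.comp h0))
    filter_upwards [h0.eventually h2, self_mem_nhdsWithin] with w h5 h6
    exact ((h.hol w h6).an f h5).differentiableAt.congr_of_eventuallyEq (h3 w h6)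
  have h5 : Tendsto (fun w => w * deriv (Function.update (fun z => f (a z)) 0 (f p)) w) (𝓝 0)
      (𝓝 0) := by
    simpa using tendsto_id.mul h4.deriv.continuousAt.tendsto
  refine (h5.mono_left nhdsWithin_le_nhds).congr' ?_
  filter_upwards [self_mem_nhdsWithin] with w hw
  rw [(h3 w hw).deriv_eq]

open Classical in
/-- The vector field `w d/dw`. -/
def fld (a : ℂ → C.X) (f : C.X → ℂ) (p : C.X) : ℂ :=
  if h : ∃ w ≠ 0, a w = p then h.choose * deriv (fun z => f (a z)) h.choose else 0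

theorem Pun.fld_eq (h : Pun C b a) {w : ℂ} (hw : w ≠ 0) (f : C.X → ℂ) :
    fld a f (a w) = w * deriv (fun z => f (a z)) w := by
  have h1 : ∃ w' ≠ 0, a w' = a w := ⟨w, hw, rfl⟩
  rw [fld, dif_pos h1, h.inj _ h1.choose_spec.1 w hw h1.choose_spec.2]

theorem fld_zero {p : C.X} (hp : ¬ ∃ w ≠ 0, a w = p) (f : C.X → ℂ) : fld a f p = 0 := by
  rw [fld, dif_neg hp]

theorem Pun.fh_fld (hC : C.IsStable) (hb : b ∈ C.B) (h : Pun C b a) {p : C.X} (hp : p ∈ C.fib b)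
    {f : C.X → ℂ} (hf : C.hol f p) : FH C b (fld a f) p := by
  have := hC.2.1
  have hA : ∀ w ≠ 0, C.hol f (a w) → FH C b (fld a f) (a w) := fun w hw h1 =>
    h.fh hw ((analyticAt_id.mul ((h.hol w hw).an f h1).deriv).congr
      ((isOpen_ne.eventually_mem hw).mono fun z hz => (h.fld_eq hz f).symm))
  by_cases hpA : ∃ w ≠ 0, a w = p
  · obtain ⟨w, hw, rfl⟩ := hpA
    exact hA w hw hf
  obtain ⟨q₀, h0⟩ := h.limit hC hb
  obtain ⟨q₁, h1⟩ := h.inv.limit hC hb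
  refine fh_removable hC hp ?_ ?_
  · rw [ContinuousWithinAt, fld_zero hpA]
    refine Tendsto.mono_left (NormedAddGroup.tendsto_nhds_zero.2 fun ε hε => ?_) nhdsWithin_le_nhds
    have h2 := h.esc hC h0 h1 (fun w hw e => hpA ⟨w, hw, e⟩)
      (Q := fun w => ‖w * deriv (fun z => f (a z)) w‖ < ε)
      (fun e => NormedAddGroup.tendsto_nhds_zero.1 (h.zd hC (e ▸ h0) hf) ε hε) (fun e => by
        filter_upwards [NormedAddGroup.tendsto_nhds_zero.1 (h.inv.zd hC (e ▸ h1) hf) ε hε,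
          self_mem_nhdsWithin, (e ▸ h1 : Tendsto _ _ (𝓝 p)).eventually (hol_ev hC hf).2]
          with w h3 h4 h5
        have h6 : w ≠ 0 := h4
        have h7 : HasDerivAt (fun z => f (a z⁻¹))
            (deriv (fun z => f (a z)) w⁻¹ * (-(w ^ 2)⁻¹)) w :=
          HasDerivAt.comp (h₂ := fun z => f (a z)) w
            ((h.hol _ (inv_ne_zero h6)).an f h5).differentiableAt.hasDerivAt (hasDerivAt_inv h6)
        rw [h7.deriv] at h3
        have h8 : w * (deriv (fun z => f (a z)) w⁻¹ * (-(w ^ 2)⁻¹)) =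
            -(w⁻¹ * deriv (fun z => f (a z)) w⁻¹) := by field_simp
        rwa [h8, norm_neg] at h3)
    filter_upwards [h2] with x hx
    by_cases h3 : ∃ w ≠ 0, a w = x
    · obtain ⟨w, hw, rfl⟩ := h3
      rw [h.fld_eq hw]
      exact hx w hw rfl
    · rwa [fld_zero h3, norm_zero]
  · have key : ∀ q : C.X, ∀ᶠ x in 𝓝 p, x ≠ p → q ≠ x := fun q => by
      by_cases e : q = p
      · exact Eventually.of_forall fun x hx => e ▸ hx.symm
      · filter_upwards [isOpen_ne.mem_nhds (Ne.symm e)] with x hx _ using Ne.symm hx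
    filter_upwards [mem_nhdsWithin_of_mem_nhds (hol_ev hC hf).2,
      mem_nhdsWithin_of_mem_nhds (key q₀), mem_nhdsWithin_of_mem_nhds (key q₁)] with x h2 h3 h4 h5
    by_cases h6 : ∃ w ≠ 0, a w = x
    · obtain ⟨w, hw, rfl⟩ := h6
      exact hA w hw h2
    · have h7 := h.esc hC h0 h1 (fun w hw e => h6 ⟨w, hw, e⟩) (Q := fun _ => False)
        (fun e => absurd e (h3 h5)) fun e => absurd e (h4 h5)
      obtain ⟨U, u, v, t, hU, hm⟩ := exists_mod hC x
      refine ⟨fun _ => 0, (hm.hol x hU _).2 ⟨fun _ => 0, analyticAt_const, EventuallyEq.rfl⟩, ?_⟩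
      filter_upwards [mem_nhdsWithin_of_mem_nhds h7] with y hy
      exact fld_zero (fun ⟨w, hw, e⟩ => hy w hw e) f

/-- **Rigidity.** -/
theorem Pun.false (hC : C.IsStable) (hb : b ∈ C.B) (h : Pun C b a)
    (hm : ∀ w ≠ 0, ∀ i, a w ≠ C.s i b) : False := by
  have hF : C.IsField b (fld a) := by
    refine ⟨fun p hp f g hf hg => ?_, fun p hp c => ?_, fun i f _ =>
      fld_zero (fun ⟨w, hw, e⟩ => hm w hw i e) f⟩
    · by_cases hpA : ∃ w ≠ 0, a w = p
      · obtain ⟨w, hw, rfl⟩ := hpA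
        have h1 := ((h.hol w hw).an f hf).differentiableAt
        have h2 := ((h.hol w hw).an g hg).differentiableAt
        refine ⟨?_, ?_, fun e => ?_, h.fh_fld hC hb hp hf⟩
        · simp only [h.fld_eq hw, Pi.add_apply]
          rw [deriv_fun_add h1 h2, mul_add]
        · simp only [h.fld_eq hw, Pi.mul_apply]
          rw [deriv_fun_mul h1 h2]
          ring
        · rw [h.fld_eq hw, h.fld_eq hw,
            EventuallyEq.deriv_eq (f₁ := fun z => f (a z)) (f := fun z => g (a z))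
              ((h.hol w hw).tendsto.eventually e)]
      · exact ⟨by simp [fld_zero hpA], by simp [fld_zero hpA], fun _ => by simp [fld_zero hpA],
          h.fh_fld hC hb hp hf⟩
    · by_cases hpA : ∃ w ≠ 0, a w = p
      · obtain ⟨w, hw, rfl⟩ := hpA
        simp [h.fld_eq hw]
      · exact fld_zero hpA _
  obtain ⟨U, u, v, t, hU, hM, h0⟩ := h.sm 1 one_ne_zero
  have h1 := (hC.2.2.2.2.2 b hb).2.2 _ hF (a 1) (h.hol 1 one_ne_zero).mem u (hM.hol_u hU)
  rw [h.fld_eq one_ne_zero, one_mul] at h1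
  exact h.deriv_ne one_ne_zero hM hU h0 h1

end Vale.Agent.P273SD

end
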