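import Vale.Agent.P273SD.Lim

/-!
The rescaling lemma of Zalcman for maps into the fibres of a family of stable curves.
-/

set_option linter.unusedSectionVars false
set_option linter.unusedVariables false

noncomputable section

namespace Vale.Agent.P273SD

open Set Filter Topology Metric Vale.Agent.P273.H183 Vale.Agent.P273.H948

variable {L : Type} {m : ℕ} {ι : Type} {C : Fam L m}

/-- Point picking. -/
theorem pick {P : ℂ → ℝ → Prop} {z₀ : ℂ} {R ρ₀ : ℝ} (hR : 0 < R) (hρ : 0 < ρ₀) (h0 : ¬ P z₀ ρ₀)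
    (hmono : ∀ w r r', r' ≤ r → P w r → P w r')
    (hL : ∃ δ > 0, ∀ w ∈ closedBall z₀ (2 * (R * ρ₀)), P w δ) :
    ∃ w ∈ closedBall z₀ (2 * (R * ρ₀)), ∃ ρ, 0 < ρ ∧ ρ ≤ ρ₀ ∧ ¬ P w ρ ∧
      ∀ w' ∈ closedBall w (R * ρ), P w' (ρ / 2) := by
  by_contra hcon
  have hRρ : 0 < R * ρ₀ := mul_pos hR hρ
  have hS : ∀ n : ℕ, ∃ w, dist w z₀ ≤ 2 * (R * ρ₀) * (1 - (1 / 2) ^ n) ∧
      ¬ P w (ρ₀ * (1 / 2) ^ n) := by
    intro n
    induction n with
    | zero => exact ⟨z₀, by simp, by simpa using h0⟩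
    | succ n ih =>
      obtain ⟨w, h1, h2⟩ := ih
      have h3 : (0 : ℝ) < (1 / 2) ^ n := by positivity
      have h4 : (1 / 2 : ℝ) ^ n ≤ 1 := pow_le_one₀ (by norm_num) (by norm_num)
      by_contra h5
      refine hcon ⟨w, ?_, ρ₀ * (1 / 2) ^ n, by positivity, by nlinarith, h2, fun w' hw' => ?_⟩
      · rw [mem_closedBall]
        nlinarith
      · by_contra h6
        refine h5 ⟨w', ?_, by rwa [pow_succ, ← mul_assoc, mul_one_div]⟩
        have h7 := dist_triangle w' w z₀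
        rw [mem_closedBall] at hw'
        rw [pow_succ]
        nlinarith
  obtain ⟨δ, hδ, h1⟩ := hL
  obtain ⟨n, hn⟩ := exists_pow_lt_of_lt_one (div_pos hδ hρ) (by norm_num : (1 / 2 : ℝ) < 1)
  obtain ⟨w, h2, h3⟩ := hS n
  have h4 : (0 : ℝ) < (1 / 2) ^ n := by positivity
  refine h3 (hmono w δ _ ?_ (h1 w ?_))
  · rw [lt_div_iff₀ hρ] at hn
    linarith
  · rw [mem_closedBall]
    nlinarith

variable {𝒰 : Ultrafilter ι} {b : ι → Fin m → ℂ} {b₀ : Fin m → ℂ} {g : ι → ℂ → C.X} {z₀ : ℂ}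

/-- **Montel** in a chart. -/
theorem conv_of_chart (hC : C.IsStable) (hb : Tendsto b 𝒰 (𝓝 b₀)) {U K : Set C.X}
    {u v : C.X → ℂ} {t : (Fin m → ℂ) → ℂ} (h : Mod C U u v t) (hK : IsCompact K) (hKU : K ⊆ U)
    {r : ℝ} (hg : ∀ᶠ j in (𝒰 : Filter ι), ∀ w ∈ ball z₀ r, HolF C (b j) (g j) w ∧ g j w ∈ K) :
    ∀ z ∈ ball z₀ r, ∃ q, CC C 𝒰 g z q := by
  intro z hz
  obtain ⟨M, hM⟩ := hK.exists_bound_of_continuousOn (f := fun q => (u q, v q))
    fun q hq => ((h.cont_u (hKU hq)).prodMk (h.cont_v (hKU hq))).continuousWithinAt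
  obtain ⟨G, hG, hGd⟩ := P275KR.montel' 𝒰 (f := fun j w => (u (g j w), v (g j w))) isOpen_ball
    (C := M) (hg.mono fun j hj => ⟨(diffOn_u h fun w hw => ⟨(hj w hw).1, hKU (hj w hw).2⟩).prodMk
      (diffOn_u h.swap fun w hw => ⟨(hj w hw).1, hKU (hj w hw).2⟩),
      fun w hw => hM _ (hj w hw).2⟩)
  obtain ⟨q, hq, h1⟩ := hK.ultrafilter_le_nhds (𝒰.map fun j => g j z)
    (le_principal_iff.2 (hg.mono fun j hj => (hj z hz).2))
  have : Nonempty C.X := ⟨q⟩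
  refine ⟨q, ?_⟩
  have h2 : Tendsto (fun x : ι × ℂ => (u (g x.1 x.2), v (g x.1 x.2))) ((𝒰 : Filter ι) ×ˢ 𝓝 z)
      (𝓝 (G z)) := by
    have h3 := tendstoLocallyUniformlyOn_iff_forall_tendsto.1 hG z hz
    rw [isOpen_ball.nhdsWithin_eq hz] at h3
    exact Tendsto.congr_uniformity
      ((hGd.continuousOn.continuousAt (isOpen_ball.mem_nhds hz)).tendsto.comp tendsto_snd) h3
  have h3 : ∀ᶠ x : ι × ℂ in (𝒰 : Filter ι) ×ˢ 𝓝 z, HolF C (b x.1) (g x.1) x.2 ∧ g x.1 x.2 ∈ K :=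
    ev_of_ball (P := fun j w => HolF C (b j) (g j) w ∧ g j w ∈ K) hz hg
  have h4 : Tendsto (fun x : ι × ℂ => Emap C.π u v (g x.1 x.2)) ((𝒰 : Filter ι) ×ˢ 𝓝 z)
      (𝓝 (b₀, G z)) :=
    ((hb.comp tendsto_fst).congr' (h3.mono fun x hx => Eq.symm hx.1.mem)).prodMk_nhds h2
  have h5 : Emap C.π u v q = (b₀, G z) :=
    tendsto_nhds_unique ((h.cont (hKU hq)).tendsto.comp h1) (h4.comp (tendsto_pt _ z))
  have h6 : Tendsto (fun x : ι × ℂ => Emap C.π u v (g x.1 x.2)) ((𝒰 : Filter ι) ×ˢ 𝓝 z)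
      (𝓝[Mset t] (Emap C.π u v q)) :=
    tendsto_nhdsWithin_iff.2 ⟨h5 ▸ h4, h3.mono fun x hx => h.eqn _ (hKU hx.2)⟩
  exact ((tendsto_Qc h (hKU hq)).comp h6).congr' (h3.mono fun x hx => Qc_E h (hKU hx.2))

/-- The maps converge continuously near `z`. -/
def Nrm (C : Fam L m) (l : Filter ι) (g : ι → ℂ → C.X) (z : ℂ) : Prop :=
  ∀ᶠ w in 𝓝 z, ∃ q, CC C l g w q

/-- The limit. -/
def lm (C : Fam L m) [Nonempty C.X] (l : Filter ι) (g : ι → ℂ → C.X) (z : ℂ) : C.X :=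
  limUnder l fun j => g j z

theorem CC.lm_eq [Nonempty C.X] (hC : C.IsStable) {l : Filter ι} [l.NeBot] {z : ℂ} {q : C.X}
    (h : CC C l g z q) : lm C l g z = q := by
  have := hC.2.1
  exact h.pt.limUnder_eq

theorem Nrm.cc [Nonempty C.X] (hC : C.IsStable) {l : Filter ι} [l.NeBot] {z : ℂ}
    (h : Nrm C l g z) : ∀ᶠ w in 𝓝 z, CC C l g w (lm C l g w) :=
  Eventually.mono h fun _ ⟨_, hq⟩ => by rwa [hq.lm_eq hC]

theorem exists_cover (hC : C.IsStable) (hb₀ : b₀ ∈ C.B) : ∃ (T : Finset C.X) (K : C.X → Set C.X),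
    (∀ p, IsCompact (K p) ∧ ∃ U u v t, Mod C U u v t ∧ K p ⊆ U) ∧
      C.fib b₀ ⊆ ⋃ p ∈ T, interior (K p) := by
  have := hC.2.1
  have := wlc hC
  have h1 : ∀ p : C.X, ∃ K ∈ 𝓝 p, IsCompact K ∧ ∃ U u v t, Mod C U u v t ∧ K ⊆ U := by
    intro p
    obtain ⟨U, u, v, t, hU, h⟩ := exists_mod hC p
    obtain ⟨K, h2, h3, h4⟩ := local_compact_nhds (h.isOpen.mem_nhds hU)
    exact ⟨K, h2, h4, U, u, v, t, h, h3⟩
  choose K h2 h3 using h1
  obtain ⟨T, -, h4⟩ := (isCompact_fib hC hb₀).elim_nhds_subcover (fun p => interior (K p))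
    fun p _ => interior_mem_nhds.2 (h2 p)
  exact ⟨T, K, h3, h4⟩

/-- **Zalcman's lemma.** -/
theorem zalcman [Nonempty C.X] (hC : C.IsStable) (hb₀ : b₀ ∈ C.B) (hb : Tendsto b 𝒰 (𝓝 b₀))
    (hh : EH C 𝒰 b g z₀) (hn : ¬ Nrm C 𝒰 g z₀) :
    ∃ (w : ι → ℂ) (ρ : ι → ℝ), Tendsto w 𝒰 (𝓝 z₀) ∧ Tendsto ρ 𝒰 (𝓝 0) ∧
      (∀ᶠ j in (𝒰 : Filter ι), 0 < ρ j) ∧
      (∀ ζ, Nrm C 𝒰 (fun j ζ => g j (w j + ρ j * ζ)) ζ) ∧
      ∃ ζ, lm C 𝒰 (fun j ζ => g j (w j + ρ j * ζ)) ζ ≠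
        lm C 𝒰 (fun j ζ => g j (w j + ρ j * ζ)) 0 := by
  classical
  obtain ⟨T, K, hK, hT⟩ := exists_cover hC hb₀
  set P : ι → ℂ → ℝ → Prop := fun j w r => ∃ p ∈ T, ∀ w' ∈ ball w r, g j w' ∈ interior (K p)
    with hP
  have hmono : ∀ j w r r', r' ≤ r → P j w r → P j w r' := fun j w r r' h ⟨p, hp, h1⟩ =>
    ⟨p, hp, fun w' hw' => h1 w' (ball_subset_ball h hw')⟩
  obtain ⟨r₀, hr₀, h0⟩ := ev_ball (P := fun j w => HolF C (b j) (g j) w) hh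
  have hfib := hb.eventually (ev_fib_sub hC hb₀ (isOpen_biUnion fun _ _ => isOpen_interior) hT)
  have conv : ∀ {k : ι → ℂ → C.X} {z : ℂ} {r : ℝ}, 0 < r → EH C 𝒰 b k z →
      (∀ᶠ j in (𝒰 : Filter ι), ∃ p ∈ T, ∀ w' ∈ ball z r, k j w' ∈ interior (K p)) →
      Nrm C 𝒰 k z := by
    intro k z r hr h1 h2
    obtain ⟨r₁, hr₁, h3⟩ := ev_ball (P := fun j w => HolF C (b j) (k j) w) h1
    obtain ⟨p, hp, h4⟩ := (Ultrafilter.eventually_exists_mem_iff T.finite_toSet).1 h2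
    obtain ⟨h5, U, u, v, t, h6, h7⟩ := hK p
    filter_upwards [ball_mem_nhds z (lt_min hr hr₁)] with w hw
    refine conv_of_chart hC hb h6 h5 h7 ((h3.and h4).mono fun j hj w' hw' =>
      ⟨hj.1 w' (ball_subset_ball (min_le_right _ _) hw'),
        interior_subset (hj.2 w' (ball_subset_ball (min_le_left _ _) hw'))⟩) w hw
  have hnot : ∀ r > 0, ∀ᶠ j in (𝒰 : Filter ι), ¬ P j z₀ r := fun r hr =>
    Ultrafilter.eventually_not.2 fun h => hn (conv hr hh h)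
  have hleb : ∀ᶠ j in (𝒰 : Filter ι), ∀ s < r₀, ∃ δ > 0, ∀ w ∈ closedBall z₀ s, P j w δ := by
    filter_upwards [h0, hfib] with j h1 h2 s hs
    obtain ⟨δ, hδ, h3⟩ := lebesgue_number_lemma_of_metric (isCompact_closedBall z₀ s)
      (c := fun p : T => interior (g j ⁻¹' interior (K p))) (fun _ => isOpen_interior) (by
        intro w hw
        have h4 := h1 w (closedBall_subset_ball hs hw)
        obtain ⟨p, hp, h5⟩ := mem_iUnion₂.1 (h2 h4.mem)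
        exact mem_iUnion.2 ⟨⟨p, hp⟩,
          mem_interior_iff_mem_nhds.2 (h4.cont (isOpen_interior.mem_nhds h5))⟩)
    refine ⟨δ, hδ, fun w hw => ?_⟩
    obtain ⟨p, h4⟩ := h3 w hw
    exact ⟨p, p.2, fun w' hw' => interior_subset (s := g j ⁻¹' interior (K p)) (h4 hw')⟩
  set N : ι → ℕ := fun j => if H : ∃ n : ℕ, P j z₀ ((1 / 4) ^ (n + 1)) then Nat.find H else 0
    with hN
  have hex : ∀ᶠ j in (𝒰 : Filter ι), ∃ n : ℕ, P j z₀ ((1 / 4) ^ (n + 1)) := by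
    filter_upwards [hleb] with j hj
    obtain ⟨δ, hδ, h1⟩ := hj 0 hr₀
    obtain ⟨n, hn⟩ := exists_pow_lt_of_lt_one hδ (by norm_num : (1 / 4 : ℝ) < 1)
    refine ⟨n, hmono j _ δ _ ?_ (h1 z₀ (mem_closedBall_self le_rfl))⟩
    have : (0 : ℝ) < (1 / 4) ^ n := by positivity
    rw [pow_succ]
    linarith
  have hNt : Tendsto N 𝒰 atTop := by
    refine tendsto_atTop.2 fun k => ?_
    filter_upwards [hex, hnot ((1 / 4) ^ k) (by positivity)] with j h1 h2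
    simp only [hN, dif_pos h1, Nat.le_find_iff]
    exact fun n hn h3 => h2 (hmono j _ _ _
      (pow_le_pow_of_le_one (by norm_num) (by norm_num) hn) h3)
  have hhalf : Tendsto (fun j => (1 / 2 : ℝ) ^ N j) 𝒰 (𝓝 0) :=
    (tendsto_pow_atTop_nhds_zero_of_lt_one (by norm_num) (by norm_num)).comp hNt
  have hmul : ∀ n : ℕ, (2 : ℝ) ^ n * (1 / 4) ^ n = (1 / 2) ^ n := fun n => by
    rw [← mul_pow]; norm_num
  have hpk : ∀ᶠ j in (𝒰 : Filter ι), ∃ x : ℂ × ℝ, dist x.1 z₀ ≤ 2 * (1 / 2) ^ N j ∧ 0 < x.2 ∧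
      x.2 ≤ (1 / 4) ^ N j ∧ ¬ P j x.1 x.2 ∧
        ∀ w' ∈ closedBall x.1 (2 ^ N j * x.2), P j w' (x.2 / 2) := by
    filter_upwards [hex, hleb, hNt.eventually_ge_atTop 1,
      (hhalf.const_mul 2).eventually (gt_mem_nhds (by simpa using hr₀))] with j h1 h2 h3 h4
    have h5 : ¬ P j z₀ ((1 / 4) ^ N j) := by
      have h6 : N j = Nat.find h1 := by simp only [hN, dif_pos h1]
      have h7 := Nat.find_min h1 (m := N j - 1) (by omega)
      rwa [Nat.sub_add_cancel h3] at h7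
    obtain ⟨w, h6, ρ, h7, h8, h9, h10⟩ := pick (P := P j) (R := 2 ^ N j) (by positivity)
      (by positivity) h5 (hmono j) (by rw [hmul]; exact h2 _ h4)
    rw [hmul] at h6
    exact ⟨(w, ρ), h6, h7, h8, h9, h10⟩
  obtain ⟨x, hx⟩ := hpk.choice
  have hw : Tendsto (fun j => (x j).1) 𝒰 (𝓝 z₀) :=
    tendsto_iff_dist_tendsto_zero.2 (squeeze_zero' (Eventually.of_forall fun _ => dist_nonneg)
      (hx.mono fun j hj => hj.1) (by simpa using hhalf.const_mul 2))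
  have hρ : Tendsto (fun j => (x j).2) 𝒰 (𝓝 0) :=
    squeeze_zero' (hx.mono fun j hj => hj.2.1.le) (hx.mono fun j hj => hj.2.2.1)
      ((tendsto_pow_atTop_nhds_zero_of_lt_one (by norm_num) (by norm_num)).comp hNt)
  have hEH : ∀ ζ, EH C 𝒰 b (fun j ζ => g j ((x j).1 + (x j).2 * ζ)) ζ := by
    intro ζ
    have h1 : Tendsto (fun y : ι × ℂ => (x y.1).1 + ((x y.1).2 : ℂ) * y.2)
        ((𝒰 : Filter ι) ×ˢ 𝓝 ζ) (𝓝 z₀) := by
      simpa using (hw.comp tendsto_fst).add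
        ((((Complex.continuous_ofReal.tendsto 0).comp hρ).comp tendsto_fst).mul tendsto_snd)
    filter_upwards [(tendsto_fst.prodMk h1).eventually hh] with y hy
    exact HolF.comp (k := fun ζ => (x y.1).1 + ((x y.1).2 : ℂ) * ζ) hy (by fun_prop)
  have hNrm : ∀ ζ, Nrm C 𝒰 (fun j ζ => g j ((x j).1 + (x j).2 * ζ)) ζ := by
    intro ζ
    refine conv (r := 1 / 2) (by norm_num) (hEH ζ) ?_
    filter_upwards [hx, ((tendsto_pow_atTop_atTop_of_one_lt (by norm_num : (1 : ℝ) < 2)).comp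
      hNt).eventually_ge_atTop ‖ζ‖] with j ⟨_, h2, _, _, h5⟩ h6
    obtain ⟨p, hp, h7⟩ := h5 ((x j).1 + (x j).2 * ζ) (by
      rw [mem_closedBall, dist_self_add_left, norm_mul, Complex.norm_real, Real.norm_of_nonneg h2.le,
        mul_comm]
      exact mul_le_mul_of_nonneg_right h6 h2.le)
    refine ⟨p, hp, fun w' hw' => h7 _ ?_⟩
    rw [mem_ball, dist_add_left, dist_eq_norm, ← mul_sub, norm_mul, Complex.norm_real,
      Real.norm_of_nonneg h2.le]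
    rw [mem_ball, dist_eq_norm] at hw'
    nlinarith
  refine ⟨fun j => (x j).1, fun j => (x j).2, hw, hρ, hx.mono fun j hj => hj.2.1, hNrm, ?_⟩
  by_contra hcon
  push Not at hcon
  have h1 := fun ζ => ((hNrm ζ).cc hC).self_of_nhds
  obtain ⟨p, hp, h2⟩ := mem_iUnion₂.1 (hT ((h1 0).fib hC hb (hEH 0)))
  have h3 := ev_compact (isCompact_closedBall (0 : ℂ) 1)
    (P := fun j ζ => g j ((x j).1 + (x j).2 * ζ) ∈ interior (K p))
    fun ζ _ => h1 ζ (isOpen_interior.mem_nhds (by rw [hcon ζ]; exact h2))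
  obtain ⟨j, h4, -, h5, -, h6, -⟩ := (h3.and hx).exists
  refine h6 ⟨p, hp, fun w' hw' => ?_⟩
  have h7 : ((x j).2 : ℂ) ≠ 0 := by exact_mod_cast h5.ne'
  have h8 := h4 ((w' - (x j).1) / (x j).2) (by
    rw [mem_closedBall_zero_iff, norm_div, Complex.norm_real, Real.norm_of_nonneg h5.le,
      div_le_one h5, ← dist_eq_norm]
    exact le_of_lt hw')
  rwa [mul_div_cancel₀ _ h7, add_sub_cancel] at h8

end Vale.Agent.P273SD

end
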